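import Vale.Agent.P049.TS.Rate.T1rate
import Vale.Agent.P049.TS.Asm.Tgt

/-!
The rate lemmas of the potentials `f1` (of `ε tr Z`) and `fD` (of `tr Z² - N`) in the phases I, II.
-/

set_option linter.unusedSectionVars false
set_option exponentiation.threshold 3000

namespace Vale.Agent.P049.TS.Rate

open Matrix Finset D12 Asm

variable {n d k : ℕ}

/-- the constant `K(d) = 20 d⁴` -/
noncomputable def Kd (d : ℕ) : ℝ := 20 * (d : ℝ) ^ 4

theorem Kd_facts (hd : 3 ≤ d) :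
    1 ≤ Kd d ∧ 4 * (d : ℝ) ^ 2 + 1 ≤ Kd d ∧ (d : ℝ) + 25 ≤ Kd d ∧ (d : ℝ) * (d + 1) ≤ Kd d ∧
      2 * (d : ℝ) ≤ Kd d ∧ 16 * (d : ℝ) ^ 4 + 1 ≤ Kd d ∧ 2 * (d : ℝ) ^ 2 + 1 ≤ Kd d := by
  have hd' : (3 : ℝ) ≤ d := by exact_mod_cast hd
  have h2 : (9 : ℝ) ≤ (d : ℝ) ^ 2 := by nlinarith
  have h3 : (d : ℝ) ≤ (d : ℝ) ^ 2 := by nlinarith
  have h4 : 9 * (d : ℝ) ^ 2 ≤ (d : ℝ) ^ 4 := by nlinarith
  unfold Kd
  refine ⟨?_, ?_, ?_, ?_, ?_, ?_, ?_⟩ <;> linarith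

theorem num_of (hd : 3 ≤ d) (hσ : 2000 ≤ sR n) (hk : k < k2 n d) :
    Num (sR n : ℝ) (Nk n d k) (Kd d) (bP n d k) (tP n d k) (sP n d k) (vP n d k)
      (wP n d k) (eP n d k) := by
  have hσ1 : 1 ≤ sR n := by omega
  have hs1 := sR_one hσ
  have hs := sR_ge hσ
  have hN := Nk_pos hσ1 hk
  obtain ⟨q1, q2, q3, q4, q5, q6, q7⟩ := Kd_facts hd
  have hd0 : (0 : ℝ) ≤ d := Nat.cast_nonneg d
  refine ⟨by linarith, q1, (Nk_gt hk).le, ?_, bP_nonneg _ _ _, tP_nonneg _ _ _,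
    sP_nonneg _ _ _, vP_nonneg _ _ _, wP_nonneg _ _ _, eP_nonneg _ _ _,
    (bP_four hN hσ1).le, ?_, (sP_sq hσ1).le, (wP_sq hN).le, ?_⟩
  · have h1 := Nk_le n d k
    have h2 := n_le_two_mul hσ
    have h3 : (0 : ℝ) ≤ (sR n : ℝ) ^ 1000 := by positivity
    calc Nk n d k ≤ (n : ℝ) * d := h1
      _ ≤ 2 * (sR n : ℝ) ^ 1000 * d := mul_le_mul_of_nonneg_right h2 hd0
      _ = 2 * d * (sR n : ℝ) ^ 1000 := by ring
      _ ≤ _ := mul_le_mul_of_nonneg_right q5 h3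
  · rw [tP_sq hN]; linarith
  · rw [eP_sq hN]
    exact mul_le_mul_of_nonneg_right (pow_le_pow_left₀ (by linarith) q3 2) hN.le

/-- `C N / σ² ≤ C rT` -/
theorem div_sq_le_rT (hσ : 2000 ≤ sR n) (hk : k < k2 n d) :
    Nk n d k / (sR n : ℝ) ^ 2 ≤ rT n d k := by
  have hσ1 : 1 ≤ sR n := by omega
  have hs1 := sR_one hσ
  have hN := Nk_pos hσ1 hk
  have e1 : rT n d k = Nk n d k / (sR n : ℝ) := by
    unfold rT
    have h1 := sR_pow hσ1 (XX n d k) 1
    rw [pow_one] at h1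
    nth_rewrite 1 [Nk_eq_mo hN (LL n)]
    rw [h1, Asm.mo_div]
    norm_num
  rw [e1]
  have h0 : (0 : ℝ) < sR n := by linarith
  rw [div_le_div_iff₀ (by positivity) h0]
  nlinarith [mul_nonneg hN.le h0.le, mul_nonneg (mul_nonneg hN.le h0.le) (sub_nonneg.2 hs1)]

variable {ι : Type*} [Fintype ι] [DecidableEq ι]
variable {F : Finset ι} {Zp Zm Z : Matrix ι ι ℝ} {forb : ι → ι → Prop} {ε : ℝ}

theorem Sgn.eps (hs : Sgn Zp Zm ε Z) : ε = 1 ∨ ε = -1 := by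
  rcases hs with ⟨rfl, -⟩ | ⟨rfl, -⟩
  · exact Or.inl rfl
  · exact Or.inr rfl

theorem abs_T1_le (hd : 3 ≤ d) (hσ : 2000 ≤ sR n) (o : OneA n d k ε F Z) :
    |ε * Z.trace| ≤ Kd d * (sR n : ℝ) ^ 384 := by
  obtain ⟨q1, q2, q3, q4, q5, q6, q7⟩ := Kd_facts hd
  have h1 := o.d1
  have h2 := abs_t1_le hσ hd k
  have h3 : (sR n : ℝ) ^ 377 ≤ (sR n : ℝ) ^ 384 :=
    pow_le_pow_right₀ (sR_one hσ) (by norm_num)
  have h4 : |ε * Z.trace| ≤ |ε * Z.trace - t1 n d k| + |t1 n d k| := by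
    have := abs_add_le (ε * Z.trace - t1 n d k) (t1 n d k)
    rwa [sub_add_cancel] at this
  have h5 : (0 : ℝ) ≤ (sR n : ℝ) ^ 384 := by positivity
  nlinarith

theorem abs_T3_le (hd : 3 ≤ d) (hσ : 2000 ≤ sR n) (o : OneA n d k ε F Z) :
    |ε * (Z ^ 3).trace| ≤ Kd d * (sR n : ℝ) ^ 1000 := by
  obtain ⟨q1, q2, q3, q4, q5, q6, q7⟩ := Kd_facts hd
  have h1 := o.d3
  have h2 := kap_le' hσ hd
  have h2' := kap_pos hσ hd
  have h1' : |ε * (Z ^ 3).trace - kap n d| ≤ (sR n : ℝ) ^ 1000 := by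
    refine h1.trans ?_
    split_ifs <;> exact pow_le_pow_right₀ (sR_one hσ) (by norm_num)
  have h4 : |ε * (Z ^ 3).trace| ≤ |ε * (Z ^ 3).trace - kap n d| + |kap n d| := by
    have := abs_add_le (ε * (Z ^ 3).trace - kap n d) (kap n d)
    rwa [sub_add_cancel] at this
  rw [abs_of_pos h2'] at h4
  have h5 : (0 : ℝ) ≤ (sR n : ℝ) ^ 1000 := by positivity
  nlinarith

/-- **rate lemma of `f1`** -/
theorem rate_T1 (d : ℕ) (hd : 3 ≤ d) : ∃ C : ℝ, ∃ s0 : ℕ,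
    ∀ (ι : Type) [Fintype ι] [DecidableEq ι] (n k : ℕ) (F : Finset ι) (Zp Zm : Matrix ι ι ℝ)
      (forb : ι → ι → Prop), s0 ≤ sR n → EnvA n d k F Zp Zm forb →
      ∀ (ε : ℝ) (Z : Matrix ι ι ℝ), Sgn Zp Zm ε Z →
      ∑ p ∈ adm F forb Zp Zm, (1 - hA n d k F forb Zp Zm p.1 p.2) *
        (f1 n d (k + 1) ε (upd Z p.1 p.2) - f1 n d k ε Z) ≤ C * rT n d k := by
  refine ⟨10000 * Kd d ^ 4, 2000, ?_⟩
  intro ι _ _ n k F Zp Zm forb hσ h ε Z hs
  have hσ1 : 1 ≤ sR n := by omega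
  have hσ0 : (0 : ℝ) < sR n := by linarith [sR_one hσ]
  have hN := Nk_pos hσ1 h.k_lt
  have hN4 := four_le_Nk hσ h.k_lt
  have o := h.oneA hs
  have nu := num_of hd hσ h.k_lt
  have hkap := kap_pos hσ hd
  obtain ⟨q1, q2, q3, q4, q5, q6, q7⟩ := Kd_facts hd
  have hkap' : kap n d ≤ Kd d * (sR n : ℝ) ^ 1000 := by
    have h1 := kap_le' hσ hd
    have h2 : (0 : ℝ) ≤ (sR n : ℝ) ^ 1000 := by positivity
    nlinarith
  obtain ⟨Z', hP⟩ := hs.isPair
  have hE := card_compl_le h hσ1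
  have hT1 := abs_T1_le hd hσ o
  have hD0 := o.dD
  have hC0 : 0 ≤ 10000 * Kd d ^ 4 := by positivity
  refine le_trans ?_ (mul_le_mul_of_nonneg_left (div_sq_le_rT (n := n) (d := d) hσ h.k_lt) hC0)
  by_cases hk : k < k1 n d
  · -- phase I
    have hl0 : 0 < lam n := lam_pos hσ1
    have hD : |(Z ^ 2).trace - Nk n d k| ≤ (sR n : ℝ) ^ 683 := by
      rw [tD_of_le hk.le, sub_zero] at hD0
      exact hD0
    have h3 : |ε * (Z ^ 3).trace - kap n d| ≤ (sR n : ℝ) ^ 950 := by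
      have := o.d3
      rwa [if_pos hk] at this
    have hv : vP n d k ^ 2 ≤ (sR n : ℝ) ^ 610 := by
      rw [vP_sq hσ1, if_pos hk]
    have hdt : t1 n d (k + 1) - t1 n d k
        = -(lam n * kap n d * (1 / (Nk n d k - 2) - 1 / Nk n d k)) := by
      unfold t1
      rw [min_eq_left hk.le, min_eq_left (show k + 1 ≤ k1 n d by omega), Nk_succ]
      ring
    have main := T1_rate_I (e := eP n d k) o.ctl (h.two hk) h.tp hP (Sgn.eps hs) h.card
      (by linarith) (eP_nonneg n d k) hE o.d1 hkap.le hdt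
    have num := T1_num_I (cw := cP n d k) (lam := lam n) (Δ := (d : ℝ) * (d + 1)) nu (Nk_gt1 hk).le hv
      (cP_sq hN hσ1).le (cP_nonneg n d k) rfl q4 (by positivity) hkap' hkap.le hT1 hD h3
    refine le_trans (le_of_eq ?_) ((div_le_div_of_nonneg_right main (by positivity)).trans num)
    rw [Finset.sum_div]
    refine Finset.sum_congr rfl fun p _ => ?_
    unfold f1 hA
    simp only [if_pos hk]
    rw [add_sub_cancel]
    ring
  · -- phase II
    rw [not_lt] at hk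
    have hD : |(Z ^ 2).trace - Nk n d k| ≤ Kd d * (sR n : ℝ) ^ 685 := by
      have h1 := abs_tD_le hσ hd h.k_lt.le
      have h2 : Asm.mo (LL n) (XX n d k) 1384 (-1) ≤ (sR n : ℝ) ^ 685 := by
        rw [sR_pow hσ1 (XX n d k) 685]
        apply Asm.mo_le_mo' (rng hσ hd h.k_lt) <;> norm_num
      have h3 : (sR n : ℝ) ^ 683 ≤ (sR n : ℝ) ^ 685 :=
        pow_le_pow_right₀ (sR_one hσ) (by norm_num)
      have h4 : |(Z ^ 2).trace - Nk n d k|
          ≤ |(Z ^ 2).trace - Nk n d k - tD n d k| + |tD n d k| := by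
        have := abs_add_le ((Z ^ 2).trace - Nk n d k - tD n d k) (tD n d k)
        rwa [sub_add_cancel] at this
      have h5 : (0 : ℝ) ≤ (sR n : ℝ) ^ 685 := by positivity
      have h6 : (0 : ℝ) ≤ (d : ℝ) ^ 4 := by positivity
      nlinarith
    have hv : vP n d k ^ 2 ≤ (sR n : ℝ) ^ 690 := by
      rw [vP_sq hσ1, if_neg (not_lt.2 hk)]
    have main := T1_rate_II (e := eP n d k) (F := F) (forb := forb) o.ctl hP (Sgn.eps hs) h.card
      (eP_nonneg n d k) hE o.d1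
    have num := T1_num_II nu hv hT1 hD
    refine le_trans (le_of_eq ?_) ((div_le_div_of_nonneg_right main (by positivity)).trans num)
    rw [Finset.sum_div]
    refine Finset.sum_congr rfl fun p _ => ?_
    unfold f1 hA
    simp only [if_neg (not_lt.2 hk)]
    rw [t1_step' hk]
    ring

/-- **rate lemma of `fD`** -/
theorem rate_D (d : ℕ) (hd : 3 ≤ d) : ∃ C : ℝ, ∃ s0 : ℕ,
    ∀ (ι : Type) [Fintype ι] [DecidableEq ι] (n k : ℕ) (F : Finset ι) (Zp Zm : Matrix ι ι ℝ)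
      (forb : ι → ι → Prop), s0 ≤ sR n → EnvA n d k F Zp Zm forb →
      ∀ (ε : ℝ) (Z : Matrix ι ι ℝ), Sgn Zp Zm ε Z →
      ∑ p ∈ adm F forb Zp Zm, (1 - hA n d k F forb Zp Zm p.1 p.2) *
        (fD n d (k + 1) (upd Z p.1 p.2) - fD n d k Z) ≤ C * rT n d k := by
  refine ⟨1000000 * Kd d ^ 4, 2000, ?_⟩
  intro ι _ _ n k F Zp Zm forb hσ h ε Z hs
  have hσ1 : 1 ≤ sR n := by omega
  have hσ0 : (0 : ℝ) < sR n := by linarith [sR_one hσ]
  have hN := Nk_pos hσ1 h.k_lt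
  have hN4 := four_le_Nk hσ h.k_lt
  have o := h.oneA hs
  have nu := num_of hd hσ h.k_lt
  have hkap := kap_pos hσ hd
  obtain ⟨q1, q2, q3, q4, q5, q6, q7⟩ := Kd_facts hd
  have hkap' : kap n d ≤ Kd d * (sR n : ℝ) ^ 1000 := by
    have h1 := kap_le' hσ hd
    have h2 : (0 : ℝ) ≤ (sR n : ℝ) ^ 1000 := by positivity
    nlinarith
  obtain ⟨Z', hP⟩ := hs.isPair
  have hE := card_compl_le h hσ1
  have hT1 := abs_T1_le hd hσ o
  have hT3 := abs_T3_le hd hσ o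
  have hD0 := o.dD
  have hC0 : 0 ≤ 1000000 * Kd d ^ 4 := by positivity
  refine le_trans ?_ (mul_le_mul_of_nonneg_left (div_sq_le_rT (n := n) (d := d) hσ h.k_lt) hC0)
  by_cases hk : k < k1 n d
  · -- phase I
    have hD : |(Z ^ 2).trace - Nk n d k| ≤ (sR n : ℝ) ^ 683 := by
      rw [tD_of_le hk.le, sub_zero] at hD0
      exact hD0
    have hv : vP n d k ^ 2 ≤ (sR n : ℝ) ^ 610 := by
      rw [vP_sq hσ1, if_pos hk]
    have main := D_rate_I (e := eP n d k) o.ctl (h.two hk) h.tp hP h.card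
      (eP_nonneg n d k) hE o.dD
    rw [← eps_abs_mul (Sgn.eps hs) Z.trace, ← eps_abs_mul (Sgn.eps hs) (Z ^ 3).trace] at main
    have num := D_num_I (cw := cP n d k) (lam := lam n) (Δ := (d : ℝ) * (d + 1)) nu (Nk_gt1 hk).le hv
      (cP_sq hN hσ1).le (cP_nonneg n d k) rfl q4 (by positivity) hT1 hD hT3
    refine le_trans (le_of_eq ?_) ((div_le_div_of_nonneg_right main (by positivity)).trans num)
    rw [Finset.sum_div]
    refine Finset.sum_congr rfl fun p _ => ?_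
    unfold fD hA
    simp only [if_pos hk]
    rw [Nk_succ, tD_step hk]
    ring
  · -- phase II
    rw [not_lt] at hk
    have hD : |(Z ^ 2).trace - Nk n d k| ≤ Kd d * (sR n : ℝ) ^ 685 := by
      have h1 := abs_tD_le hσ hd h.k_lt.le
      have h2 : Asm.mo (LL n) (XX n d k) 1384 (-1) ≤ (sR n : ℝ) ^ 685 := by
        rw [sR_pow hσ1 (XX n d k) 685]
        apply Asm.mo_le_mo' (rng hσ hd h.k_lt) <;> norm_num
      have h3 : (sR n : ℝ) ^ 683 ≤ (sR n : ℝ) ^ 685 :=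
        pow_le_pow_right₀ (sR_one hσ) (by norm_num)
      have h4 : |(Z ^ 2).trace - Nk n d k|
          ≤ |(Z ^ 2).trace - Nk n d k - tD n d k| + |tD n d k| := by
        have := abs_add_le ((Z ^ 2).trace - Nk n d k - tD n d k) (tD n d k)
        rwa [sub_add_cancel] at this
      have h5 : (0 : ℝ) ≤ (sR n : ℝ) ^ 685 := by positivity
      have h6 : (0 : ℝ) ≤ (d : ℝ) ^ 4 := by positivity
      nlinarith
    have hv : vP n d k ^ 2 ≤ (sR n : ℝ) ^ 690 := by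
      rw [vP_sq hσ1, if_neg (not_lt.2 hk)]
    have hK1 : K1 n d ≤ Kd d * (sR n : ℝ) ^ 384 := by
      have h1 := K1_le hσ hd
      have h2 : (0 : ℝ) ≤ (sR n : ℝ) ^ 384 := by positivity
      nlinarith
    have hK10 := K1_pos hσ hd
    have hx1 : |ε * Z.trace - -K1 n d| ≤ (sR n : ℝ) ^ 377 := by
      have := o.d1
      rwa [t1_of_ge hk] at this
    have hx3 : |ε * (Z ^ 3).trace - kap n d| ≤ (sR n : ℝ) ^ 993 := by
      have := o.d3
      rwa [if_neg (not_lt.2 hk)] at this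
    have hdt : tD n d (k + 1) - tD n d k
        = -(2 * K1 n d * kap n d * (1 / (Nk n d k - 2) - 1 / Nk n d k)) := by
      unfold tD
      rw [max_eq_left hk, max_eq_left (show k1 n d ≤ k + 1 by omega), Nk_succ]
      ring
    have main := D_rate_II (e := eP n d k) (F := F) (forb := forb) o.ctl hP (Sgn.eps hs) h.card
      (by linarith) (eP_nonneg n d k) hE o.dD hkap.le hK10.le hdt
    have num := D_num_II nu hv hkap' hkap.le hK1 hK10.le hx1 hx3 hT1 hD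
    refine le_trans (le_of_eq ?_) ((div_le_div_of_nonneg_right main (by positivity)).trans num)
    rw [Finset.sum_div]
    refine Finset.sum_congr rfl fun p _ => ?_
    unfold fD hA
    simp only [if_neg (not_lt.2 hk)]
    rw [Nk_succ, add_sub_cancel]
    ring

end Vale.Agent.P049.TS.Rate
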