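import Vale.Agent.P049.TS.Rate.RVabs
import Vale.Agent.P049.TS.Shell.Sign2

/-!
**The rate lemma of the potential `fV`** (of `V = Σ (w_a - 1)²`) in the phases I and II.
-/

set_option linter.unusedSectionVars false
set_option exponentiation.threshold 3000

namespace Vale.Agent.P049.TS.RV

open Matrix Finset A480 WtA Asm

variable {n d k : ℕ}

theorem cs_nonneg {κ : ℕ → ℝ} (hκ : ∀ i, 0 ≤ κ i) : ∀ e : Ex, 0 ≤ e.cs κ
  | .v i => hκ i
  | .c n => Nat.cast_nonneg n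
  | .add a b => add_nonneg (cs_nonneg hκ a) (cs_nonneg hκ b)
  | .mul a b => mul_nonneg (cs_nonneg hκ a) (cs_nonneg hκ b)
  | .pow a n => pow_nonneg (cs_nonneg hκ a) n

/-- `√N` -/
noncomputable def nP (n d k : ℕ) : ℝ := Asm.mo (LL n) (XX n d k) 0 (1 / 2)

theorem nP_nonneg (n d k : ℕ) : 0 ≤ nP n d k := mo_nonneg _ _ _ _

theorem nP_sq (hN : 0 < Nk n d k) : nP n d k ^ 2 = Nk n d k := by
  have h1 := Nk_eq_mo hN (LL n)
  unfold nP
  rw [h1, mo_pow]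
  norm_num

variable {ι : Type*} [Fintype ι] [DecidableEq ι]
variable {F : Finset ι} {Zp Zm Z : Matrix ι ι ℝ} {forb : ι → ι → Prop} {ε : ℝ}

theorem one_le_sP (hσ : 2000 ≤ sR n) : 1 ≤ sP n d k := by
  have h1 := sP_nonneg n d k
  have h2 := sP_sq (n := n) (d := d) (k := k) (show 1 ≤ sR n by omega)
  have h3 : (1 : ℝ) ≤ (sR n : ℝ) ^ 80 := one_le_pow₀ (sR_one hσ)
  nlinarith

theorem pr_of (hd : 3 ≤ d) (hσ : 2000 ≤ sR n) (hk : k < k2 n d)
    (hc : (F.card : ℝ) = Nk n d k) (o : OneA n d k ε F Z) (he : ε = 1 ∨ ε = -1) {r : ℝ}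
    (hr0 : 0 ≤ r) (hr : 1 + vP n d k ≤ r ^ 2) :
    Pr F Z (bP n d k) (tP n d k) (sP n d k) (vP n d k) (wP n d k) r (2 * sP n d k)
      (nP n d k) where
  c := o.ctl
  r0 := hr0
  hr := hr
  hz := by linarith [one_le_sP (d := d) (k := k) hσ]
  n0 := nP_nonneg _ _ _
  hn := by rw [nP_sq (Nk_pos (by omega) hk), hc]
  ent := by
    have hN : (2000 : ℝ) ≤ F.card := by
      rw [hc]
      have h1 := Nk_gt hk
      have h2 : (sR n : ℝ) ≤ (sR n : ℝ) ^ 699 := le_self_pow₀ (sR_one hσ) (by norm_num)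
      linarith [sR_ge hσ]
    refine o.sg.entry_sq_one ?_ ?_ he
    · have hd' : (3 : ℝ) ≤ d := by exact_mod_cast hd
      exact inv_pos.2 (Real.sqrt_pos.2 (by linarith))
    · have h1 := mu_le hd
      have h2 : 2 / (F.card : ℝ) ≤ 2 / 2000 := by gcongr
      linarith

theorem sgn_mem (hs : Sgn Zp Zm ε Z) : Z = Zp ∨ Z = Zm := by
  rcases hs with ⟨-, h⟩ | ⟨-, h⟩
  · exact Or.inl h
  · exact Or.inr h

theorem mu_pos (hd : 3 ≤ d) : 0 < (√((d : ℝ) - 1))⁻¹ := by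
  have hd' : (3 : ℝ) ≤ d := by exact_mod_cast hd
  exact inv_pos.2 (Real.sqrt_pos.2 (by linarith))

/-- constants of the variables, phase I -/
noncomputable def kI (d : ℕ) : ℕ → ℝ :=
  envV 1 2 1 1 2 2 2 1 ((d : ℝ) * (d + 1) + 21) 3 1 (Rate.Kd d) 1 ((d : ℝ) * (d + 1)) 1 1 1 0

/-- constants of the variables, phase II -/
noncomputable def kII (d : ℕ) : ℕ → ℝ :=
  envV 1 2 1 1 2 2 2 1 ((d : ℝ) * (d + 1) + 21) 3 (Rate.Kd d) (Rate.Kd d) 1 ((d : ℝ) * (d + 1))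
    0 0 0 (Rate.Kd d)

/-- phase I -/
theorem rV_I (hd : 3 ≤ d) (hσ : 2000 ≤ sR n) (h2 : 2 * d ≤ sR n)
    (h : EnvA n d k F Zp Zm forb) (hs : Sgn Zp Zm ε Z) (hk : k < k1 n d) :
    100 * ∑ p ∈ adm F forb Zp Zm, (1 - Tilt.hT F forb Zp Zm (lam n) p.1 p.2)
        * (Vt 1 ((F.erase p.1).erase p.2) (upd Z p.1 p.2) - Vt 1 F Z)
      ≤ eI.cs (kI d) * ((sR n : ℝ) ^ 610 * rT n d k) ∧ 0 ≤ eI.cs (kI d) := by
  have hσ1 : 1 ≤ sR n := by omega
  have hN := Nk_pos hσ1 h.k_lt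
  have o := h.oneA hs
  have he := Rate.Sgn.eps hs
  have R := rg1 hσ h2 hd hk
  obtain ⟨q1, q2, q3, q4, q5, q6, q7⟩ := Rate.Kd_facts hd
  obtain ⟨Z', hP⟩ := hs.isPair
  have hE0 : ∀ y z : ℤ, 0 < Asm.Em (LL n) (XX n d k) 802 1001 y z := fun y z => Em_pos _ _ _ _ _ _
  have hE : ∀ y z y' z' : ℤ, Asm.Em (LL n) (XX n d k) 802 1001 y z
      * Asm.Em (LL n) (XX n d k) 802 1001 y' z' = Asm.Em (LL n) (XX n d k) 802 1001 (y + y') (z + z') :=
    fun y z y' z' => Em_mul _ _ _ _ _ _ _ _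
  have hone : ∀ y z : ℤ, 0 ≤ y → 0 ≤ z → 1 ≤ Asm.Em (LL n) (XX n d k) 802 1001 y z := by
    intro y z hy hz
    rw [← Em_zero (LL n) (XX n d k) 802 1001]
    exact Em_le R hy hz
  have hv := vP_I (n := n) (d := d) (k := k) hk
  have hsP := sP_I (n := n) (d := d) (k := k)
  have hwP := wP_I (n := n) (d := d) (k := k)
  have hl := lam_I (n := n) (d := d) (k := k) hσ
  -- `r`
  have hr : 1 + vP n d k ≤ (2 * Asm.Em (LL n) (XX n d k) 802 1001 610 610) ^ 2 := by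
    have e1 : (2 * Asm.Em (LL n) (XX n d k) 802 1001 610 610) ^ 2
        = 4 * Asm.Em (LL n) (XX n d k) 802 1001 1220 1220 := by
      rw [mul_pow, sq (Asm.Em _ _ _ _ _ _), hE]; norm_num
    rw [e1, hv]
    have := hone 1220 1220 (by norm_num) (by norm_num)
    linarith
  have pr := pr_of hd hσ h.k_lt h.card o he
    (mul_nonneg (by norm_num) (hE0 610 610).le) hr
  have rp := RowB.of_ctl h.p.ctl
  have rm := RowB.of_ctl h.m.ctl
  have hΔ : (0 : ℝ) ≤ (d : ℝ) * (d + 1) := by positivity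
  -- `G`
  have hG0 : 0 ≤ ((d : ℝ) * (d + 1) + 21) * Asm.Em (LL n) (XX n d k) 802 1001 744 744 :=
    mul_nonneg (by linarith) (hE0 _ _).le
  have hG : 1 + (d : ℝ) * (d + 1) + 128 * (1 + vP n d k) + 128 * sP n d k ^ 4 + (4 * lam n) ^ 2
      ≤ (((d : ℝ) * (d + 1) + 21) * Asm.Em (LL n) (XX n d k) 802 1001 744 744) ^ 2 := by
    have e1 : (((d : ℝ) * (d + 1) + 21) * Asm.Em (LL n) (XX n d k) 802 1001 744 744) ^ 2
        = ((d : ℝ) * (d + 1) + 21) ^ 2 * Asm.Em (LL n) (XX n d k) 802 1001 1488 1488 := by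
      rw [mul_pow, sq (Asm.Em _ _ _ _ _ _), hE]; norm_num
    have e2 : sP n d k ^ 4 = Asm.Em (LL n) (XX n d k) 802 1001 640 640 := by
      rw [hsP, Em_pow]; norm_num
    have e3 : (4 * lam n) ^ 2 = 16 * Asm.Em (LL n) (XX n d k) 802 1001 1488 1488 := by
      rw [hl, mul_pow, sq (Asm.Em _ _ _ _ _ _), hE]; norm_num
    rw [e1, e2, e3, hv]
    have i1 := hone 1488 1488 (by norm_num) (by norm_num)
    have i2 := Em_le R (show (1220 : ℤ) ≤ 1488 by norm_num) (show (1220 : ℤ) ≤ 1488 by norm_num)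
    have i3 := Em_le R (show (640 : ℤ) ≤ 1488 by norm_num) (show (640 : ℤ) ≤ 1488 by norm_num)
    have i4 : (401 + (d : ℝ) * (d + 1)) * Asm.Em (LL n) (XX n d k) 802 1001 1488 1488
        ≤ ((d : ℝ) * (d + 1) + 21) ^ 2 * Asm.Em (LL n) (XX n d k) 802 1001 1488 1488 :=
      mul_le_mul_of_nonneg_right (by nlinarith) (hE0 _ _).le
    have i5 : (129 + (d : ℝ) * (d + 1)) * 1
        ≤ (129 + (d : ℝ) * (d + 1)) * Asm.Em (LL n) (XX n d k) 802 1001 1488 1488 :=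
      mul_le_mul_of_nonneg_left i1 (by linarith)
    linarith
  -- `y`
  have hy0 : 0 ≤ 3 * Asm.Em (LL n) (XX n d k) 802 1001 1187 1386 :=
    mul_nonneg (by norm_num) (hE0 _ _).le
  have hy : 2 * sP n d k * (2 * Asm.Em (LL n) (XX n d k) 802 1001 610 610) * wP n d k
      ≤ (3 * Asm.Em (LL n) (XX n d k) 802 1001 1187 1386) ^ 2 := by
    have e1 : (3 * Asm.Em (LL n) (XX n d k) 802 1001 1187 1386) ^ 2
        = 9 * Asm.Em (LL n) (XX n d k) 802 1001 2374 2772 := by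
      rw [mul_pow, sq (Asm.Em _ _ _ _ _ _), hE]; norm_num
    have e2 : 2 * sP n d k * (2 * Asm.Em (LL n) (XX n d k) 802 1001 610 610) * wP n d k
        = 8 * Asm.Em (LL n) (XX n d k) 802 1001 2374 2772 := by
      rw [hsP, hwP]
      have := hE 160 160 610 610
      have h3 := hE (160 + 610) (160 + 610) 1604 2002
      rw [← this] at h3
      norm_num at h3
      linarith
    rw [e1, e2]
    linarith [hE0 2374 2772]
  -- `p`
  have hp : vP n d k ^ 3 ≤ (Asm.Em (LL n) (XX n d k) 802 1001 1830 1830) ^ 2 := by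
    rw [hv, Em_pow, Em_pow]; norm_num
  have hD : |(Z ^ 2).trace - F.card| ≤ (sR n : ℝ) ^ 683 := by
    have h1 := o.dD
    rw [tD_of_le hk.le, sub_zero] at h1
    rw [h.card]
    exact h1
  have hq := Rate.abs_T1_le hd hσ o
  have main := V_rate_I pr (h.two hk) hP rp rm (sgn_mem hs) h.tp o.sg he (mu_pos hd) (mu_le hd)
    hG0 hG hy0 hy hD hq rfl (hE0 1830 1830).le hp
  have e100 := eI_ev (bP n d k) (tP n d k) (sP n d k) (vP n d k) (wP n d k)
    (2 * Asm.Em (LL n) (XX n d k) 802 1001 610 610) (2 * sP n d k) (nP n d k)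
    (((d : ℝ) * (d + 1) + 21) * Asm.Em (LL n) (XX n d k) 802 1001 744 744)
    (3 * Asm.Em (LL n) (XX n d k) 802 1001 1187 1386) ((sR n : ℝ) ^ 683)
    (Rate.Kd d * (sR n : ℝ) ^ 384) (1 / (F.card : ℝ)) ((d : ℝ) * (d + 1)) (lam n) (cP n d k)
    (Asm.Em (LL n) (XX n d k) 802 1001 1830 1830) 0
  have s683 : (sR n : ℝ) ^ 683 = Asm.Em (LL n) (XX n d k) 802 1001 2732 2732 := by
    rw [sR_pow_Em hσ (X := XX n d k) (xl := 802) (xh := 1001) (by norm_num)]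
    norm_num
  have s384 : (sR n : ℝ) ^ 384 = Asm.Em (LL n) (XX n d k) 802 1001 1536 1536 := by
    rw [sR_pow_Em hσ (X := XX n d k) (xl := 802) (xh := 1001) (by norm_num)]
    norm_num
  have hK0 : 0 ≤ Rate.Kd d := by linarith
  have hq0 : 0 ≤ Rate.Kd d * (sR n : ℝ) ^ 384 := mul_nonneg hK0 (by positivity)
  obtain ⟨b1, b2, b3⟩ := envV_bound (L := LL n) (X := XX n d k) (xl := 802) (xh := 1001)
    (x0 := bP n d k) (x1 := tP n d k) (x2 := sP n d k) (x3 := vP n d k) (x4 := wP n d k)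
    (x5 := 2 * Asm.Em (LL n) (XX n d k) 802 1001 610 610) (x6 := 2 * sP n d k) (x7 := nP n d k)
    (x8 := ((d : ℝ) * (d + 1) + 21) * Asm.Em (LL n) (XX n d k) 802 1001 744 744)
    (x9 := 3 * Asm.Em (LL n) (XX n d k) 802 1001 1187 1386) (x10 := (sR n : ℝ) ^ 683)
    (x11 := Rate.Kd d * (sR n : ℝ) ^ 384) (x12 := 1 / (F.card : ℝ)) (x13 := (d : ℝ) * (d + 1))
    (x14 := lam n) (x15 := cP n d k)
    (x16 := Asm.Em (LL n) (XX n d k) 802 1001 1830 1830) (x17 := 0)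
    ⟨bP_nonneg _ _ _, zero_le_one, by rw [one_mul]; exact bP_I.le⟩
    ⟨tP_nonneg _ _ _, zero_le_two, tP_I⟩
    ⟨sP_nonneg _ _ _, zero_le_one, by rw [one_mul]; exact sP_I.le⟩
    ⟨vP_nonneg _ _ _, zero_le_one, by rw [one_mul]; exact hv.le⟩
    ⟨wP_nonneg _ _ _, zero_le_two, hwP.le⟩
    ⟨mul_nonneg (by norm_num) (hE0 610 610).le, zero_le_two, le_rfl⟩
    ⟨mul_nonneg (by norm_num) (sP_nonneg _ _ _), zero_le_two, by rw [hsP]⟩
    ⟨nP_nonneg _ _ _, zero_le_one, by rw [one_mul]; exact (moN_I (n := n) (d := d) (k := k)).le⟩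
    ⟨hG0, by linarith, le_rfl⟩
    ⟨hy0, by norm_num, le_rfl⟩
    ⟨by positivity, zero_le_one, by rw [one_mul, s683]⟩
    ⟨hq0, hK0, by rw [s384]⟩
    ⟨by positivity, zero_le_one, by
      have h1 : (1 : ℝ) / F.card * Asm.Em (LL n) (XX n d k) 802 1001 3208 4004 = 1 := by
        rw [h.card, ← Nk_I hN]; field_simp
      have h3 := hE 3208 4004 (-3208) (-4004)
      norm_num [Em_zero] at h3
      rw [one_mul]
      calc (1 : ℝ) / F.card = 1 / F.card * (Asm.Em (LL n) (XX n d k) 802 1001 3208 4004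
            * Asm.Em (LL n) (XX n d k) 802 1001 (-3208) (-4004)) := by rw [h3, mul_one]
        _ = Asm.Em (LL n) (XX n d k) 802 1001 (-3208) (-4004) := by
            rw [← mul_assoc, h1, one_mul]
        _ ≤ _ := le_rfl⟩
    ⟨hΔ, hΔ, by rw [Em_zero, mul_one]⟩
    ⟨(lam_pos hσ1).le, zero_le_one, by rw [one_mul]; exact hl.le⟩
    ⟨cP_nonneg _ _ _, zero_le_one, by rw [one_mul]; exact cP_I.le⟩
    ⟨(hE0 1830 1830).le, zero_le_one, by rw [one_mul]⟩
    (⟨le_rfl, le_rfl, by rw [zero_mul]⟩ : EB _ _ _ _ 0 0 4000 4000)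
  have fin := Ex.bound eI R _ _ eI_1 eI_2 b1 b2 b3
  have e5 : (sR n : ℝ) ^ 610 * rT n d k = Asm.Em (LL n) (XX n d k) 802 1001 5644 6440 := by
    rw [rT_I, sR_pow_Em hσ (X := XX n d k) (xl := 802) (xh := 1001) (by norm_num), hE]
    norm_num
  refine ⟨?_, cs_nonneg b2 _⟩
  rw [e5]
  refine le_trans (mul_le_mul_of_nonneg_left main (by norm_num)) ?_
  rw [e100]
  exact fin

/-- phase II -/
theorem rV_II (hd : 3 ≤ d) (hσ : 2000 ≤ sR n)
    (h : EnvA n d k F Zp Zm forb) (hs : Sgn Zp Zm ε Z) (hk : k1 n d ≤ k) :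
    100 * ∑ p ∈ adm F forb Zp Zm,
        (Vt 1 ((F.erase p.1).erase p.2) (upd Z p.1 p.2) - Vt 1 F Z)
      ≤ eII.cs (kII d) * ((sR n : ℝ) ^ 690 * rT n d k) ∧ 0 ≤ eII.cs (kII d) := by
  have hσ1 : 1 ≤ sR n := by omega
  have hN := Nk_pos hσ1 h.k_lt
  have o := h.oneA hs
  have he := Rate.Sgn.eps hs
  have R := rg2 hσ hd hk h.k_lt
  obtain ⟨q1, q2, q3, q4, q5, q6, q7⟩ := Rate.Kd_facts hd
  have hE0 : ∀ y z : ℤ, 0 < Asm.Em (LL n) (XX n d k) 699 802 y z := fun y z => Em_pos _ _ _ _ _ _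
  have hE : ∀ y z y' z' : ℤ, Asm.Em (LL n) (XX n d k) 699 802 y z
      * Asm.Em (LL n) (XX n d k) 699 802 y' z' = Asm.Em (LL n) (XX n d k) 699 802 (y + y') (z + z') :=
    fun y z y' z' => Em_mul _ _ _ _ _ _ _ _
  have hone : ∀ y z : ℤ, 0 ≤ y → 0 ≤ z → 1 ≤ Asm.Em (LL n) (XX n d k) 699 802 y z := by
    intro y z hy hz
    rw [← Em_zero (LL n) (XX n d k) 699 802]
    exact Em_le R hy hz
  have hv := vP_II (n := n) (d := d) (k := k) hk
  have hsP := sP_II (n := n) (d := d) (k := k)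
  have hwP := wP_II (n := n) (d := d) (k := k)
  -- `r`
  have hr : 1 + vP n d k ≤ (2 * Asm.Em (LL n) (XX n d k) 699 802 690 690) ^ 2 := by
    have e1 : (2 * Asm.Em (LL n) (XX n d k) 699 802 690 690) ^ 2
        = 4 * Asm.Em (LL n) (XX n d k) 699 802 1380 1380 := by
      rw [mul_pow, sq (Asm.Em _ _ _ _ _ _), hE]; norm_num
    rw [e1, hv]
    have := hone 1380 1380 (by norm_num) (by norm_num)
    linarith
  have pr := pr_of hd hσ h.k_lt h.card o he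
    (mul_nonneg (by norm_num) (hE0 690 690).le) hr
  have rp := RowB.of_ctl h.p.ctl
  have rm := RowB.of_ctl h.m.ctl
  have hΔ : (0 : ℝ) ≤ (d : ℝ) * (d + 1) := by positivity
  -- `G`
  have hG0 : 0 ≤ ((d : ℝ) * (d + 1) + 21) * Asm.Em (LL n) (XX n d k) 699 802 690 690 :=
    mul_nonneg (by linarith) (hE0 _ _).le
  have hG : 1 + (d : ℝ) * (d + 1) + 128 * (1 + vP n d k) + 128 * sP n d k ^ 4 + 0
      ≤ (((d : ℝ) * (d + 1) + 21) * Asm.Em (LL n) (XX n d k) 699 802 690 690) ^ 2 := by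
    have e1 : (((d : ℝ) * (d + 1) + 21) * Asm.Em (LL n) (XX n d k) 699 802 690 690) ^ 2
        = ((d : ℝ) * (d + 1) + 21) ^ 2 * Asm.Em (LL n) (XX n d k) 699 802 1380 1380 := by
      rw [mul_pow, sq (Asm.Em _ _ _ _ _ _), hE]; norm_num
    have e2 : sP n d k ^ 4 = Asm.Em (LL n) (XX n d k) 699 802 640 640 := by
      rw [hsP, Em_pow]; norm_num
    rw [e1, e2, hv]
    have i1 := hone 1380 1380 (by norm_num) (by norm_num)
    have i3 := Em_le R (show (640 : ℤ) ≤ 1380 by norm_num) (show (640 : ℤ) ≤ 1380 by norm_num)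
    have i4 : (401 + (d : ℝ) * (d + 1)) * Asm.Em (LL n) (XX n d k) 699 802 1380 1380
        ≤ ((d : ℝ) * (d + 1) + 21) ^ 2 * Asm.Em (LL n) (XX n d k) 699 802 1380 1380 :=
      mul_le_mul_of_nonneg_right (by nlinarith) (hE0 _ _).le
    have i5 : (129 + (d : ℝ) * (d + 1)) * 1
        ≤ (129 + (d : ℝ) * (d + 1)) * Asm.Em (LL n) (XX n d k) 699 802 1380 1380 :=
      mul_le_mul_of_nonneg_left i1 (by linarith)
    linarith
  -- `y`
  have hy0 : 0 ≤ 3 * Asm.Em (LL n) (XX n d k) 699 802 1124 1227 :=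
    mul_nonneg (by norm_num) (hE0 _ _).le
  have hy : 2 * sP n d k * (2 * Asm.Em (LL n) (XX n d k) 699 802 690 690) * wP n d k
      ≤ (3 * Asm.Em (LL n) (XX n d k) 699 802 1124 1227) ^ 2 := by
    have e1 : (3 * Asm.Em (LL n) (XX n d k) 699 802 1124 1227) ^ 2
        = 9 * Asm.Em (LL n) (XX n d k) 699 802 2248 2454 := by
      rw [mul_pow, sq (Asm.Em _ _ _ _ _ _), hE]; norm_num
    have e2 : 2 * sP n d k * (2 * Asm.Em (LL n) (XX n d k) 699 802 690 690) * wP n d k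
        = 8 * Asm.Em (LL n) (XX n d k) 699 802 2248 2454 := by
      rw [hsP, hwP]
      have := hE 160 160 690 690
      have h3 := hE (160 + 690) (160 + 690) 1398 1604
      rw [← this] at h3
      norm_num at h3
      linarith
    rw [e1, e2]
    linarith [hE0 2248 2454]
  have hD : |(Z ^ 2).trace - F.card| ≤ Rate.Kd d * (sR n : ℝ) ^ 685 := by
    have hD0 := o.dD
    rw [h.card]
    have h1 := abs_tD_le hσ hd h.k_lt.le
    have h2 : Asm.mo (LL n) (XX n d k) 1384 (-1) ≤ (sR n : ℝ) ^ 685 := by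
      rw [sR_pow hσ1 (XX n d k) 685]
      apply Asm.mo_le_mo' (rng hσ hd h.k_lt) <;> norm_num
    have h3 : (sR n : ℝ) ^ 683 ≤ (sR n : ℝ) ^ 685 :=
      pow_le_pow_right₀ (sR_one hσ) (by norm_num)
    have h4 : |(Z ^ 2).trace - Nk n d k|
        ≤ |(Z ^ 2).trace - Nk n d k - tD n d k| + |tD n d k| := by
      have := abs_add_le ((Z ^ 2).trace - Nk n d k - tD n d k) (tD n d k)
      rwa [sub_add_cancel] at this
    have h5 : (0 : ℝ) ≤ (sR n : ℝ) ^ 685 := by positivity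
    have h6 : (0 : ℝ) ≤ (d : ℝ) ^ 4 := by positivity
    nlinarith
  have hq := Rate.abs_T1_le hd hσ o
  have hT1 : ε * Z.trace ≤ 0 := by
    have h1 := o.d1
    rw [t1_of_ge hk] at h1
    have h2 := (abs_le.1 h1).2
    have h3 := K1_ge hσ hd
    have h4 : (sR n : ℝ) ^ 377 ≤ (sR n : ℝ) ^ 384 :=
      pow_le_pow_right₀ (sR_one hσ) (by norm_num)
    linarith
  have hT3 : ε * (Z ^ 3).trace ≤ Rate.Kd d * (sR n : ℝ) ^ 1000 :=
    (le_abs_self _).trans (Rate.abs_T3_le hd hσ o)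
  have hK0 : 0 ≤ Rate.Kd d := by linarith
  have hq0 : 0 ≤ Rate.Kd d * (sR n : ℝ) ^ 384 := mul_nonneg hK0 (by positivity)
  have hD0 : 0 ≤ Rate.Kd d * (sR n : ℝ) ^ 685 := mul_nonneg hK0 (by positivity)
  have hu0 : 0 ≤ Rate.Kd d * (sR n : ℝ) ^ 1000 := mul_nonneg hK0 (by positivity)
  have main := V_rate_II pr rp rm (sgn_mem hs) h.tp o.sg he (mu_pos hd) (mu_le hd)
    hG0 hG hy0 hy hD hq rfl hT1 hT3 hu0
  have e100 := eII_ev (bP n d k) (tP n d k) (sP n d k) (vP n d k) (wP n d k)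
    (2 * Asm.Em (LL n) (XX n d k) 699 802 690 690) (2 * sP n d k) (nP n d k)
    (((d : ℝ) * (d + 1) + 21) * Asm.Em (LL n) (XX n d k) 699 802 690 690)
    (3 * Asm.Em (LL n) (XX n d k) 699 802 1124 1227) (Rate.Kd d * (sR n : ℝ) ^ 685)
    (Rate.Kd d * (sR n : ℝ) ^ 384) (1 / (F.card : ℝ)) ((d : ℝ) * (d + 1)) 0 0 0
    (Rate.Kd d * (sR n : ℝ) ^ 1000)
  have s685 : (sR n : ℝ) ^ 685 = Asm.Em (LL n) (XX n d k) 699 802 2740 2740 := by
    rw [sR_pow_Em hσ (X := XX n d k) (xl := 699) (xh := 802) (by norm_num)]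
    norm_num
  have s384 : (sR n : ℝ) ^ 384 = Asm.Em (LL n) (XX n d k) 699 802 1536 1536 := by
    rw [sR_pow_Em hσ (X := XX n d k) (xl := 699) (xh := 802) (by norm_num)]
    norm_num
  have s1000 : (sR n : ℝ) ^ 1000 = Asm.Em (LL n) (XX n d k) 699 802 4000 4000 := by
    rw [sR_pow_Em hσ (X := XX n d k) (xl := 699) (xh := 802) (by norm_num)]
    norm_num
  obtain ⟨b1, b2, b3⟩ := envV_bound (L := LL n) (X := XX n d k) (xl := 699) (xh := 802)
    (x0 := bP n d k) (x1 := tP n d k) (x2 := sP n d k) (x3 := vP n d k) (x4 := wP n d k)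
    (x5 := 2 * Asm.Em (LL n) (XX n d k) 699 802 690 690) (x6 := 2 * sP n d k) (x7 := nP n d k)
    (x8 := ((d : ℝ) * (d + 1) + 21) * Asm.Em (LL n) (XX n d k) 699 802 690 690)
    (x9 := 3 * Asm.Em (LL n) (XX n d k) 699 802 1124 1227) (x10 := Rate.Kd d * (sR n : ℝ) ^ 685)
    (x11 := Rate.Kd d * (sR n : ℝ) ^ 384) (x12 := 1 / (F.card : ℝ)) (x13 := (d : ℝ) * (d + 1))
    (x14 := 0) (x15 := 0) (x16 := 0) (x17 := Rate.Kd d * (sR n : ℝ) ^ 1000)
    ⟨bP_nonneg _ _ _, zero_le_one, by rw [one_mul]; exact bP_II.le⟩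
    ⟨tP_nonneg _ _ _, zero_le_two, tP_II⟩
    ⟨sP_nonneg _ _ _, zero_le_one, by rw [one_mul]; exact sP_II.le⟩
    ⟨vP_nonneg _ _ _, zero_le_one, by rw [one_mul]; exact hv.le⟩
    ⟨wP_nonneg _ _ _, zero_le_two, hwP.le⟩
    ⟨mul_nonneg (by norm_num) (hE0 690 690).le, zero_le_two, le_rfl⟩
    ⟨mul_nonneg (by norm_num) (sP_nonneg _ _ _), zero_le_two, by rw [hsP]⟩
    ⟨nP_nonneg _ _ _, zero_le_one, by rw [one_mul]; exact (moN_II (n := n) (d := d) (k := k)).le⟩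
    ⟨hG0, by linarith, le_rfl⟩
    ⟨hy0, by norm_num, le_rfl⟩
    ⟨hD0, hK0, by rw [s685]⟩
    ⟨hq0, hK0, by rw [s384]⟩
    ⟨by positivity, zero_le_one, by
      have h1 : (1 : ℝ) / F.card * Asm.Em (LL n) (XX n d k) 699 802 2796 3208 = 1 := by
        rw [h.card, ← Nk_II hN]; field_simp
      have h3 := hE 2796 3208 (-2796) (-3208)
      norm_num [Em_zero] at h3
      rw [one_mul]
      calc (1 : ℝ) / F.card = 1 / F.card * (Asm.Em (LL n) (XX n d k) 699 802 2796 3208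
            * Asm.Em (LL n) (XX n d k) 699 802 (-2796) (-3208)) := by rw [h3, mul_one]
        _ = Asm.Em (LL n) (XX n d k) 699 802 (-2796) (-3208) := by
            rw [← mul_assoc, h1, one_mul]
        _ ≤ _ := le_rfl⟩
    ⟨hΔ, hΔ, by rw [Em_zero, mul_one]⟩
    (⟨le_rfl, le_rfl, by rw [zero_mul]⟩ : EB _ _ _ _ 0 0 0 0)
    (⟨le_rfl, le_rfl, by rw [zero_mul]⟩ : EB _ _ _ _ 0 0 0 0)
    (⟨le_rfl, le_rfl, by rw [zero_mul]⟩ : EB _ _ _ _ 0 0 0 0)
    ⟨hu0, hK0, by rw [s1000]⟩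
  have fin := Ex.bound eII R _ _ eII_1 eII_2 b1 b2 b3
  have e5 : (sR n : ℝ) ^ 690 * rT n d k = Asm.Em (LL n) (XX n d k) 699 802 5552 5964 := by
    rw [rT_II, sR_pow_Em hσ (X := XX n d k) (xl := 699) (xh := 802) (by norm_num), hE]
    norm_num
  refine ⟨?_, cs_nonneg b2 _⟩
  rw [e5]
  refine le_trans (mul_le_mul_of_nonneg_left main (by norm_num)) ?_
  rw [e100]
  exact fin

theorem gV_eq (F : Finset ι) (Z : Matrix ι ι ℝ) : gV F Z = Vt 1 F Z := rfl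

/-- the scale of `V` decreases -/
theorem fV_succ_le (hσ : 2000 ≤ sR n) (F : Finset ι) (Z : Matrix ι ι ℝ) :
    fV n d (k + 1) F Z
      ≤ Vt 1 F Z / (if k < k1 n d then (sR n : ℝ) ^ 610 else (sR n : ℝ) ^ 690) := by
  have h0 := Vt_nonneg 1 F Z
  have hs := sR_one hσ
  have hs0 : (0 : ℝ) < sR n := by linarith
  unfold fV
  rw [gV_eq]
  by_cases h1 : k < k1 n d
  · rw [if_pos h1]
    split_ifs with h2
    · exact le_rfl
    · apply div_le_div_of_nonneg_left h0 (by positivity)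
      exact pow_le_pow_right₀ hs (by norm_num)
  · rw [if_neg h1, if_neg (show ¬ k + 1 < k1 n d by omega)]

/-- **rate lemma of `fV`** -/
theorem rate_V (d : ℕ) (hd : 3 ≤ d) : ∃ C : ℝ, ∃ s0 : ℕ,
    ∀ (ι : Type) [Fintype ι] [DecidableEq ι] (n k : ℕ) (F : Finset ι) (Zp Zm : Matrix ι ι ℝ)
      (forb : ι → ι → Prop), s0 ≤ sR n → EnvA n d k F Zp Zm forb →
      ∀ (ε : ℝ) (Z : Matrix ι ι ℝ), Sgn Zp Zm ε Z →
      ∑ p ∈ adm F forb Zp Zm, (1 - hA n d k F forb Zp Zm p.1 p.2) *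
        (fV n d (k + 1) ((F.erase p.1).erase p.2) (upd Z p.1 p.2) - fV n d k F Z)
        ≤ C * rT n d k := by
  have hk1 : ∀ i, 0 ≤ kI d i := by
    obtain ⟨q1, q2, q3, q4, q5, q6, q7⟩ := Rate.Kd_facts hd
    have hK0 : 0 ≤ Rate.Kd d := by linarith
    have hΔ : (0 : ℝ) ≤ (d : ℝ) * (d + 1) := by positivity
    intro i
    unfold kI envV
    split <;> first | positivity | linarith
  have hk2 : ∀ i, 0 ≤ kII d i := by
    obtain ⟨q1, q2, q3, q4, q5, q6, q7⟩ := Rate.Kd_facts hd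
    have hK0 : 0 ≤ Rate.Kd d := by linarith
    have hΔ : (0 : ℝ) ≤ (d : ℝ) * (d + 1) := by positivity
    intro i
    unfold kII envV
    split <;> first | positivity | linarith
  have c1 := cs_nonneg hk1 eI
  have c2 := cs_nonneg hk2 eII
  refine ⟨eI.cs (kI d) + eII.cs (kII d), max 2000 (2 * d), ?_⟩
  intro ι _ _ n k F Zp Zm forb hσ' h ε Z hs
  have hσ : 2000 ≤ sR n := (le_max_left _ _).trans hσ'
  have h2 : 2 * d ≤ sR n := (le_max_right _ _).trans hσ'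
  have hs0 : (0 : ℝ) < sR n := by linarith [sR_one hσ]
  have hrT : 0 ≤ rT n d k := mo_nonneg _ _ _ _
  by_cases hk : k < k1 n d
  · have hθ : (0 : ℝ) < (sR n : ℝ) ^ 610 := by positivity
    have h1 : ∑ p ∈ adm F forb Zp Zm, (1 - hA n d k F forb Zp Zm p.1 p.2) *
          (fV n d (k + 1) ((F.erase p.1).erase p.2) (upd Z p.1 p.2) - fV n d k F Z)
        ≤ (∑ p ∈ adm F forb Zp Zm, (1 - Tilt.hT F forb Zp Zm (lam n) p.1 p.2)
          * (Vt 1 ((F.erase p.1).erase p.2) (upd Z p.1 p.2) - Vt 1 F Z)) / (sR n : ℝ) ^ 610 := by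
      rw [Finset.sum_div]
      refine Finset.sum_le_sum fun p _ => ?_
      have a1 := (abs_le.1 (abs_hA_le h p.1 p.2)).2
      have a2 := fV_succ_le (n := n) (d := d) (k := k) hσ ((F.erase p.1).erase p.2)
        (upd Z p.1 p.2)
      rw [if_pos hk] at a2
      have a3 : fV n d k F Z = Vt 1 F Z / (sR n : ℝ) ^ 610 := by
        unfold fV; rw [if_pos hk]; rfl
      have a4 : hA n d k F forb Zp Zm p.1 p.2 = Tilt.hT F forb Zp Zm (lam n) p.1 p.2 := by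
        unfold hA; rw [if_pos hk]
      rw [mul_div_assoc, sub_div, ← a3, ← a4]
      exact mul_le_mul_of_nonneg_left (by linarith) (by linarith)
    obtain ⟨m1, m2⟩ := rV_I hd hσ h2 h hs hk
    refine h1.trans ?_
    rw [div_le_iff₀ hθ]
    have m3 : 0 ≤ (sR n : ℝ) ^ 610 * rT n d k := mul_nonneg hθ.le hrT
    have m4 := mul_nonneg c1 m3
    have m5 := mul_nonneg c2 m3
    nlinarith
  · have hθ : (0 : ℝ) < (sR n : ℝ) ^ 690 := by positivity
    have h1 : ∑ p ∈ adm F forb Zp Zm, (1 - hA n d k F forb Zp Zm p.1 p.2) *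
          (fV n d (k + 1) ((F.erase p.1).erase p.2) (upd Z p.1 p.2) - fV n d k F Z)
        ≤ (∑ p ∈ adm F forb Zp Zm,
          (Vt 1 ((F.erase p.1).erase p.2) (upd Z p.1 p.2) - Vt 1 F Z)) / (sR n : ℝ) ^ 690 := by
      rw [Finset.sum_div]
      refine Finset.sum_le_sum fun p _ => ?_
      have a2 := fV_succ_le (n := n) (d := d) (k := k) hσ ((F.erase p.1).erase p.2)
        (upd Z p.1 p.2)
      rw [if_neg hk] at a2
      have a3 : fV n d k F Z = Vt 1 F Z / (sR n : ℝ) ^ 690 := by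
        unfold fV; rw [if_neg hk]; rfl
      have a4 : hA n d k F forb Zp Zm p.1 p.2 = 0 := by
        unfold hA; rw [if_neg hk]
      rw [sub_div, ← a3, a4, sub_zero, one_mul]
      linarith
    obtain ⟨m1, m2⟩ := rV_II hd hσ h hs (not_lt.1 hk)
    refine h1.trans ?_
    rw [div_le_iff₀ hθ]
    have m3 : 0 ≤ (sR n : ℝ) ^ 690 * rT n d k := mul_nonneg hθ.le hrT
    have m4 := mul_nonneg c1 m3
    have m5 := mul_nonneg c2 m3
    nlinarith

end Vale.Agent.P049.TS.RV
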