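import Vale.Agent.P049.TS.Rate.Mono

/-!
Calculus of bounds `0 ≤ x ≤ c σ^a N^b` (with `σ = exp L`, `N = exp X`).
-/

namespace Vale.Agent.P049.TS.Rate

/-- `0 ≤ x ≤ c σ^a N^b` -/
structure Bd (L X x c a b : ℝ) : Prop where
  nn : 0 ≤ x
  c0 : 0 ≤ c
  le : x ≤ c * mo L X a b

variable {L X x y c c' a a' b b' : ℝ}

theorem Bd.mul (h : Bd L X x c a b) (h' : Bd L X y c' a' b') :
    Bd L X (x * y) (c * c') (a + a') (b + b') := by
  refine ⟨mul_nonneg h.nn h'.nn, mul_nonneg h.c0 h'.c0, ?_⟩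
  calc x * y ≤ (c * mo L X a b) * (c' * mo L X a' b') :=
        mul_le_mul h.le h'.le h'.nn (mul_nonneg h.c0 (mo_nonneg _ _ _ _))
    _ = c * c' * (mo L X a b * mo L X a' b') := by ring
    _ = _ := by rw [mo_mul]

theorem Bd.pow (h : Bd L X x c a b) (n : ℕ) : Bd L X (x ^ n) (c ^ n) (n * a) (n * b) := by
  refine ⟨pow_nonneg h.nn n, pow_nonneg h.c0 n, ?_⟩
  calc x ^ n ≤ (c * mo L X a b) ^ n := pow_le_pow_left₀ h.nn h.le n
    _ = _ := by rw [mul_pow, mo_pow]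

theorem Bd.to (h : Bd L X x c a b) (he : a * L + b * X ≤ a' * L + b' * X) (hc : c ≤ c') :
    Bd L X x c' a' b' := by
  refine ⟨h.nn, h.c0.trans hc, h.le.trans ?_⟩
  exact mul_le_mul hc (mo_le he) (mo_nonneg _ _ _ _) (h.c0.trans hc)

theorem Bd.add (h : Bd L X x c a b) (h' : Bd L X y c' a b) : Bd L X (x + y) (c + c') a b := by
  refine ⟨add_nonneg h.nn h'.nn, add_nonneg h.c0 h'.c0, ?_⟩
  have := h.le
  have := h'.le
  nlinarith

theorem Bd.const (hc : 0 ≤ c) : Bd L X c c 0 0 := ⟨hc, hc, by rw [mo_zero, mul_one]⟩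

/-- multiplication by a constant -/
theorem Bd.smul (h : Bd L X x c a b) {k : ℝ} (hk : 0 ≤ k) : Bd L X (k * x) (k * c) a b := by
  refine ⟨mul_nonneg hk h.nn, mul_nonneg hk h.c0, ?_⟩
  rw [mul_assoc]
  exact mul_le_mul_of_nonneg_left h.le hk

theorem Bd.mono (h : Bd L X x c a b) (hy : 0 ≤ y) (hyx : y ≤ x) : Bd L X y c a b :=
  ⟨hy, h.c0, hyx.trans h.le⟩

/-- root extraction -/
theorem Bd.of_pow {n : ℕ} (hn : n ≠ 0) (hx : 0 ≤ x) (hc : 0 ≤ c)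
    (h : x ^ n ≤ (c * mo L X a b) ^ n) : Bd L X x c a b :=
  ⟨hx, hc, le_of_pow_le_pow_left₀ hn (mul_nonneg hc (mo_nonneg _ _ _ _)) h⟩

theorem pow_eq_mo {σ : ℝ} (hσ : 0 < σ) (X : ℝ) (m : ℕ) : σ ^ m = mo (Real.log σ) X m 0 := by
  unfold mo
  rw [zero_mul, add_zero, Real.exp_nat_mul, Real.exp_log hσ]

theorem self_eq_mo {N : ℝ} (hN : 0 < N) (L : ℝ) : N = mo L (Real.log N) 0 1 := by
  unfold mo
  rw [zero_mul, zero_add, one_mul, Real.exp_log hN]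

theorem Bd.powσ {σ : ℝ} (hσ : 0 < σ) (X : ℝ) (m : ℕ) :
    Bd (Real.log σ) X (σ ^ m) 1 m 0 :=
  ⟨by positivity, zero_le_one, by rw [one_mul, pow_eq_mo hσ X m]⟩

theorem Bd.self {N : ℝ} (hN : 0 < N) (L : ℝ) : Bd L (Real.log N) N 1 0 1 :=
  ⟨hN.le, zero_le_one, by rw [one_mul]; exact (self_eq_mo hN L).le⟩

theorem Bd.invN {N : ℝ} (hN : 0 < N) (L : ℝ) : Bd L (Real.log N) (1 / N) 1 0 (-1) := by
  refine ⟨by positivity, zero_le_one, ?_⟩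
  rw [one_mul]
  have : mo L (Real.log N) 0 (-1) = (mo L (Real.log N) 0 1)⁻¹ := by rw [mo_inv, neg_zero]
  rw [this, ← self_eq_mo hN L, one_div]

end Vale.Agent.P049.TS.Rate
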