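import Vale.Agent.P049.TS.Drift.T12d
import Vale.Agent.P049.TS.Tilt.Tk
import Vale.Agent.P049.TS.Rate.Bd

/-!
Rate lemmas for the potentials of `T₁ = tr Z` and `D = tr Z² - N`: abstract part
(real parameters, no exponents).
-/

set_option linter.unusedSectionVars false

namespace Vale.Agent.P049.TS.Rate

open Matrix Finset D12

/-- square step -/
theorem sq_step {α : Type*} (A : Finset α) (om Δ : α → ℝ) {x δ dt M Q : ℝ}
    (hom : ∀ p ∈ A, 0 ≤ om p ∧ om p ≤ 3 / 2) (hδ : |x| ≤ δ)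
    (hM : |∑ p ∈ A, om p * (Δ p - dt)| ≤ M) (hQ : ∑ p ∈ A, Δ p ^ 2 ≤ Q) :
    ∑ p ∈ A, om p * ((x + (Δ p - dt)) ^ 2 - x ^ 2)
      ≤ 2 * δ * M + 3 * Q + 3 * ((A.card : ℝ) * dt ^ 2) := by
  have hδ0 : 0 ≤ δ := (abs_nonneg x).trans hδ
  have e : ∑ p ∈ A, om p * ((x + (Δ p - dt)) ^ 2 - x ^ 2)
      = 2 * (x * ∑ p ∈ A, om p * (Δ p - dt)) + ∑ p ∈ A, om p * (Δ p - dt) ^ 2 := by
    rw [Finset.mul_sum, Finset.mul_sum, ← Finset.sum_add_distrib]
    exact Finset.sum_congr rfl fun p _ => by ring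
  have h1 : x * ∑ p ∈ A, om p * (Δ p - dt) ≤ δ * M := by
    refine (le_abs_self _).trans ?_
    rw [abs_mul]
    exact mul_le_mul hδ hM (abs_nonneg _) hδ0
  have h2 : ∑ p ∈ A, om p * (Δ p - dt) ^ 2 ≤ ∑ p ∈ A, (3 * Δ p ^ 2 + 3 * dt ^ 2) := by
    refine Finset.sum_le_sum fun p hp => ?_
    obtain ⟨h0, h3⟩ := hom p hp
    have h4 : (Δ p - dt) ^ 2 ≤ 2 * Δ p ^ 2 + 2 * dt ^ 2 := by nlinarith [sq_nonneg (Δ p + dt)]
    calc om p * (Δ p - dt) ^ 2 ≤ 3 / 2 * (2 * Δ p ^ 2 + 2 * dt ^ 2) :=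
          mul_le_mul h3 h4 (sq_nonneg _) (by norm_num)
      _ = _ := by ring
  rw [Finset.sum_add_distrib, ← Finset.mul_sum, Finset.sum_const, nsmul_eq_mul] at h2
  rw [e]
  linarith

variable {ι : Type*} [Fintype ι] [DecidableEq ι]
variable {F : Finset ι} {forb : ι → ι → Prop} {Zp Zm Z Z' : Matrix ι ι ℝ}
  {lam b t s v w cw Δ e eps : ℝ}

/-- the weights -/
theorem om_bd {h : ι → ι → ℝ} {A : Finset (ι × ι)} (hh : ∀ p ∈ A, |h p.1 p.2| ≤ 1 / 2) :
    ∀ p ∈ A, 0 ≤ 1 - h p.1 p.2 ∧ 1 - h p.1 p.2 ≤ 3 / 2 := by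
  intro p hp
  have := abs_le.1 (hh p hp)
  constructor <;> linarith [this.1, this.2]

/-- the total weight: `|Σ_A (1 - h) - N²| ≤ e² + Hs` -/
theorem sum_om_sub {h : ι → ι → ℝ} {A : Finset (ι × ι)} {E Hs : ℝ} (hA : A ⊆ F ×ˢ F)
    (hE : (((F ×ˢ F) \ A).card : ℝ) ≤ E) (hH : |∑ p ∈ A, h p.1 p.2| ≤ Hs) :
    |∑ p ∈ A, (1 - h p.1 p.2) - (F.card : ℝ) ^ 2| ≤ E + Hs := by
  rw [Finset.sum_sub_distrib, Finset.sum_const, nsmul_eq_mul, mul_one]
  have hc : ((F ×ˢ F).card : ℝ) = (((F ×ˢ F) \ A).card : ℝ) + (A.card : ℝ) := by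
    rw [← Nat.cast_add, Finset.card_sdiff_add_card_eq_card hA]
  rw [Finset.card_product] at hc
  push_cast at hc
  have h1 := abs_le.1 hH
  have h2 : (0 : ℝ) ≤ (((F ×ˢ F) \ A).card : ℝ) := Nat.cast_nonneg _
  rw [abs_le]
  constructor <;> nlinarith [h1.1, h1.2]

/-- the time derivative of the target: `|dt| (Σ om) ` against `dt N²` -/
theorem dt_bd {dt S N2 R : ℝ} (h : |S - N2| ≤ R) : |dt * S - dt * N2| ≤ |dt| * R := by
  rw [← mul_sub, abs_mul]
  exact mul_le_mul_of_nonneg_left h (abs_nonneg _)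

/-- admissible pairs are admissible for each matrix -/
theorem adm_pairOK (hP : Tilt.IsPair Zp Zm Z Z') :
    ∀ p ∈ adm F forb Zp Zm, p.1 ≠ p.2 ∧ PairOK Z p.1 p.2 := by
  intro p hp
  rw [mem_adm] at hp
  obtain ⟨-, h1, -, h2, h3⟩ := hp
  rcases hP with ⟨rfl, -⟩ | ⟨rfl, -⟩
  · exact ⟨h1, h2⟩
  · exact ⟨h1, h3⟩

theorem eps_abs_mul (heps : eps = 1 ∨ eps = -1) (x : ℝ) : |eps * x| = |x| := by
  rcases heps with rfl | rfl
  · rw [one_mul]
  · rw [neg_one_mul, abs_neg]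

theorem eps_sq (heps : eps = 1 ∨ eps = -1) (x : ℝ) : (eps * x) ^ 2 = x ^ 2 := by
  rcases heps with rfl | rfl
  · rw [one_mul]
  · rw [neg_one_mul, neg_sq]

/-- **T₁, tilted phase**, abstract form.
`eps = ±1`, `x = eps T₁ - t₁`, `dt = - lam kap (1/(N-2) - 1/N)`. -/
theorem T1_rate_I (c : Ctl F Z b t s v w) (tw : Tilt.Two F Zp Zm b t s v cw)
    (hT : Tilt.TPar F forb lam Δ) (hP : Tilt.IsPair Zp Zm Z Z') {N kap t1 dt δ : ℝ}
    (heps : eps = 1 ∨ eps = -1) (hN : (F.card : ℝ) = N) (hN2 : 2 < N) (he : 0 ≤ e)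
    (hE : (((F ×ˢ F) \ adm F forb Zp Zm).card : ℝ) ≤ e ^ 2)
    (hx : |eps * Z.trace - t1| ≤ δ) (hk : 0 ≤ kap)
    (hdt : dt = -(lam * kap * (1 / (N - 2) - 1 / N))) :
    ∑ p ∈ adm F forb Zp Zm, (1 - Tilt.hT F forb Zp Zm lam p.1 p.2) *
        ((eps * (upd Z p.1 p.2).trace - (t1 + dt)) ^ 2 - (eps * Z.trace - t1) ^ 2)
      ≤ 2 * δ * (2 * (|eps * Z.trace| * |(Z ^ 2).trace - N|)
            + 2 * lam * |eps * (Z ^ 3).trace - kap| + 4 * (lam * kap / (N - 2))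
            + 2 * (lam * (cw * t) + 9 / 4 * lam * v * b ^ 2 + Tilt.rbs lam Δ s * t ^ 2)
            + (2 * e * (b ^ 2 + s * v) + 2 * (2 * lam * t) * (s * v)
              + 6 * ((t + s ^ 2) * (b ^ 2 + 2 * (s * v))))
            + 2 * (lam * kap / (N * (N - 2))) * (e ^ 2 + N * (2 * lam * t)))
        + 3 * (27 * b ^ 4 + 24 * (s * v) ^ 2)
        + 3 * (N ^ 2 * (2 * (lam * kap / (N * (N - 2)))) ^ 2) := by
  have hl := hT.lam0
  have hA := adm_subset F forb Zp Zm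
  have hadm := adm_pairOK (F := F) (forb := forb) hP
  have hh : ∀ p ∈ adm F forb Zp Zm, |Tilt.hT F forb Zp Zm lam p.1 p.2| ≤ 1 / 2 :=
    fun p _ => Tilt.abs_hT_le_half hl _ _
  have hH0 : 0 ≤ 2 * lam * t := mul_nonneg (by positivity) c.t0
  have m1 := T1_mean' c hA hadm hh he hH0 hE (tw.sum_hT_sq_le hT _)
  have m2 := T1_sq' c hA hadm
  have m3 := tw.tilt_T1 hT hP
  have m4 := sum_om_sub hA hE (tw.abs_sum_hT_le hT hA)
  rw [hN] at m1 m4
  have hNpos : 0 < N := by linarith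
  have hN2pos : 0 < N - 2 := by linarith
  have edt : dt = -(2 * (lam * kap / (N * (N - 2)))) := by
    rw [hdt]; field_simp; ring
  have eabs : |dt| = 2 * (lam * kap / (N * (N - 2))) := by
    rw [edt, abs_neg, abs_of_nonneg (by positivity)]
  have m5 := dt_bd (dt := dt) m4
  rw [eabs] at m5
  have edtN : dt * N ^ 2 = -(2 * (lam * kap)) - 4 * (lam * kap / (N - 2)) := by
    rw [edt]; field_simp; ring
  -- multiply by eps
  set S1 := ∑ p ∈ adm F forb Zp Zm, (1 - Tilt.hT F forb Zp Zm lam p.1 p.2) *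
    ((upd Z p.1 p.2).trace - Z.trace) with hS1
  set So := ∑ p ∈ adm F forb Zp Zm, (1 - Tilt.hT F forb Zp Zm lam p.1 p.2) with hSo
  set Sh := ∑ p ∈ adm F forb Zp Zm, Tilt.hT F forb Zp Zm lam p.1 p.2 * (Z ^ 2) p.1 p.2 with hSh
  have key : |∑ p ∈ adm F forb Zp Zm, (1 - Tilt.hT F forb Zp Zm lam p.1 p.2) *
      ((eps * (upd Z p.1 p.2).trace - eps * Z.trace) - dt)|
      ≤ 2 * (|eps * Z.trace| * |(Z ^ 2).trace - N|)
            + 2 * lam * |eps * (Z ^ 3).trace - kap| + 4 * (lam * kap / (N - 2))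
            + 2 * (lam * (cw * t) + 9 / 4 * lam * v * b ^ 2 + Tilt.rbs lam Δ s * t ^ 2)
            + (2 * e * (b ^ 2 + s * v) + 2 * (2 * lam * t) * (s * v)
              + 6 * ((t + s ^ 2) * (b ^ 2 + 2 * (s * v))))
            + 2 * (lam * kap / (N * (N - 2))) * (e ^ 2 + N * (2 * lam * t)) := by
    have e1 : ∑ p ∈ adm F forb Zp Zm, (1 - Tilt.hT F forb Zp Zm lam p.1 p.2) *
        ((eps * (upd Z p.1 p.2).trace - eps * Z.trace) - dt) = eps * S1 - dt * So := by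
      rw [hS1, hSo, Finset.mul_sum, Finset.mul_sum, ← Finset.sum_sub_distrib]
      exact Finset.sum_congr rfl fun p _ => by ring
    rw [e1]
    have e2 : eps * S1 - dt * So
        = eps * (S1 - 2 * (Z.trace * ((Z ^ 2).trace - N)) + 2 * Sh)
          - eps * (2 * (Sh - lam * (Z ^ 3).trace))
          + 2 * ((eps * Z.trace) * ((Z ^ 2).trace - N))
          - 2 * lam * (eps * (Z ^ 3).trace - kap)
          + 4 * (lam * kap / (N - 2)) - (dt * So - dt * N ^ 2) := by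
      rw [edtN]; ring
    rw [e2]
    have n1 : |eps * (S1 - 2 * (Z.trace * ((Z ^ 2).trace - N)) + 2 * Sh)|
        ≤ 2 * e * (b ^ 2 + s * v) + 2 * (2 * lam * t) * (s * v)
              + 6 * ((t + s ^ 2) * (b ^ 2 + 2 * (s * v))) := by
      rw [eps_abs_mul heps]; exact m1
    have n2 : |eps * (2 * (Sh - lam * (Z ^ 3).trace))|
        ≤ 2 * (lam * (cw * t) + 9 / 4 * lam * v * b ^ 2 + Tilt.rbs lam Δ s * t ^ 2) := by
      rw [eps_abs_mul heps, abs_mul, abs_two]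
      exact mul_le_mul_of_nonneg_left m3 (by norm_num)
    have n3 : |2 * ((eps * Z.trace) * ((Z ^ 2).trace - N))|
        = 2 * (|eps * Z.trace| * |(Z ^ 2).trace - N|) := by
      rw [abs_mul, abs_two, abs_mul]
    have n4 : |2 * lam * (eps * (Z ^ 3).trace - kap)|
        = 2 * lam * |eps * (Z ^ 3).trace - kap| := by
      rw [abs_mul, abs_of_pos (by linarith : 0 < 2 * lam)]
    have n5 : |4 * (lam * kap / (N - 2))| = 4 * (lam * kap / (N - 2)) :=
      abs_of_nonneg (by positivity)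
    rw [abs_le] at n1 n2 m5
    have n3' := abs_le.1 n3.le
    have n4' := abs_le.1 n4.le
    rw [abs_le]
    have n5' : 0 ≤ 4 * (lam * kap / (N - 2)) := by positivity
    constructor <;> linarith [n1.1, n1.2, n2.1, n2.2, m5.1, m5.2, n3'.1, n3'.2, n4'.1, n4'.2]
  have q2 : ∑ p ∈ adm F forb Zp Zm, (eps * (upd Z p.1 p.2).trace - eps * Z.trace) ^ 2
      ≤ 27 * b ^ 4 + 24 * (s * v) ^ 2 := by
    refine le_trans (le_of_eq (Finset.sum_congr rfl fun p _ => ?_)) m2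
    rw [← mul_sub, eps_sq heps]
  have fin := sq_step (adm F forb Zp Zm) (fun p => 1 - Tilt.hT F forb Zp Zm lam p.1 p.2)
    (fun p => eps * (upd Z p.1 p.2).trace - eps * Z.trace) (om_bd hh) hx key q2
  have hc : ((adm F forb Zp Zm).card : ℝ) ≤ N ^ 2 := by
    have := Finset.card_le_card hA
    rw [Finset.card_product] at this
    rw [← hN]
    calc ((adm F forb Zp Zm).card : ℝ) ≤ ((F.card * F.card : ℕ) : ℝ) := by exact_mod_cast this
      _ = _ := by push_cast; ring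
  have hc2 : ((adm F forb Zp Zm).card : ℝ) * dt ^ 2
      ≤ N ^ 2 * (2 * (lam * kap / (N * (N - 2)))) ^ 2 := by
    rw [← sq_abs dt, eabs]
    exact mul_le_mul_of_nonneg_right hc (sq_nonneg _)
  have e3 : ∀ p : ι × ι, (eps * (upd Z p.1 p.2).trace - (t1 + dt)) ^ 2
      - (eps * Z.trace - t1) ^ 2 = (eps * Z.trace - t1
        + ((eps * (upd Z p.1 p.2).trace - eps * Z.trace) - dt)) ^ 2
        - (eps * Z.trace - t1) ^ 2 := fun p => by ring
  simp only [e3]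
  linarith

/-- **T₁, untilted phase**, abstract form: the target is constant -/
theorem T1_rate_II (c : Ctl F Z b t s v w) (hP : Tilt.IsPair Zp Zm Z Z') {N t1 δ : ℝ}
    (heps : eps = 1 ∨ eps = -1) (hN : (F.card : ℝ) = N) (he : 0 ≤ e)
    (hE : (((F ×ˢ F) \ adm F forb Zp Zm).card : ℝ) ≤ e ^ 2)
    (hx : |eps * Z.trace - t1| ≤ δ) :
    ∑ p ∈ adm F forb Zp Zm,
        ((eps * (upd Z p.1 p.2).trace - t1) ^ 2 - (eps * Z.trace - t1) ^ 2)
      ≤ 2 * δ * (2 * (|eps * Z.trace| * |(Z ^ 2).trace - N|)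
            + (2 * e * (b ^ 2 + s * v) + 6 * ((t + s ^ 2) * (b ^ 2 + 2 * (s * v)))))
        + 3 * (27 * b ^ 4 + 24 * (s * v) ^ 2) := by
  have hA := adm_subset F forb Zp Zm
  have hadm := adm_pairOK (F := F) (forb := forb) hP
  have m1 := T1_mean' (h := fun _ _ => 0) c hA hadm (fun p _ => by norm_num) he le_rfl hE
    (by simp)
  have m2 := T1_sq' c hA hadm
  simp only [sub_zero, one_mul, zero_mul, Finset.sum_const_zero, mul_zero, add_zero] at m1
  rw [hN] at m1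
  have key : |∑ p ∈ adm F forb Zp Zm, (1 : ℝ) *
      ((eps * (upd Z p.1 p.2).trace - eps * Z.trace) - 0)|
      ≤ 2 * (|eps * Z.trace| * |(Z ^ 2).trace - N|)
            + (2 * e * (b ^ 2 + s * v) + 6 * ((t + s ^ 2) * (b ^ 2 + 2 * (s * v)))) := by
    have e1 : ∑ p ∈ adm F forb Zp Zm, (1 : ℝ) *
        ((eps * (upd Z p.1 p.2).trace - eps * Z.trace) - 0)
        = eps * (∑ p ∈ adm F forb Zp Zm, ((upd Z p.1 p.2).trace - Z.trace)
          - 2 * (Z.trace * ((Z ^ 2).trace - N)))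
          + 2 * ((eps * Z.trace) * ((Z ^ 2).trace - N)) := by
      rw [mul_sub, Finset.mul_sum]
      have : ∀ p : ι × ι, (1 : ℝ) * ((eps * (upd Z p.1 p.2).trace - eps * Z.trace) - 0)
          = eps * ((upd Z p.1 p.2).trace - Z.trace) := fun p => by ring
      simp only [this]
      ring
    rw [e1]
    refine (abs_add_le _ _).trans ?_
    rw [eps_abs_mul heps, abs_mul 2, abs_two, abs_mul]
    linarith
  have q2 : ∑ p ∈ adm F forb Zp Zm, (eps * (upd Z p.1 p.2).trace - eps * Z.trace) ^ 2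
      ≤ 27 * b ^ 4 + 24 * (s * v) ^ 2 := by
    refine le_trans (le_of_eq (Finset.sum_congr rfl fun p _ => ?_)) m2
    rw [← mul_sub, eps_sq heps]
  have fin := sq_step (adm F forb Zp Zm) (fun _ => (1 : ℝ))
    (fun p => eps * (upd Z p.1 p.2).trace - eps * Z.trace)
    (fun p _ => by norm_num) hx key q2
  have e3 : ∀ p : ι × ι, (eps * (upd Z p.1 p.2).trace - t1) ^ 2
      - (eps * Z.trace - t1) ^ 2 = 1 * ((eps * Z.trace - t1
        + ((eps * (upd Z p.1 p.2).trace - eps * Z.trace) - 0)) ^ 2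
        - (eps * Z.trace - t1) ^ 2) := fun p => by ring
  simp only [e3]
  linarith

/-! ### `D = T₂ - N` -/

theorem eps_cube (heps : eps = 1 ∨ eps = -1) (x y : ℝ) : x * y = (eps * x) * (eps * y) := by
  rcases heps with rfl | rfl <;> ring

/-- **D, tilted phase**, abstract form: the target is `0`. -/
theorem D_rate_I (c : Ctl F Z b t s v w) (tw : Tilt.Two F Zp Zm b t s v cw)
    (hT : Tilt.TPar F forb lam Δ) (hP : Tilt.IsPair Zp Zm Z Z') {N tD δ : ℝ}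
    (hN : (F.card : ℝ) = N) (he : 0 ≤ e)
    (hE : (((F ×ˢ F) \ adm F forb Zp Zm).card : ℝ) ≤ e ^ 2)
    (hx : |(Z ^ 2).trace - N - tD| ≤ δ) :
    ∑ p ∈ adm F forb Zp Zm, (1 - Tilt.hT F forb Zp Zm lam p.1 p.2) *
        (((upd Z p.1 p.2 ^ 2).trace - (N - 2) - tD) ^ 2 - ((Z ^ 2).trace - N - tD) ^ 2)
      ≤ 2 * δ * (4 * (|Z.trace| * |(Z ^ 3).trace|) + 4 * |Z.trace| ^ 2
            + 2 * |(Z ^ 2).trace - N| ^ 2
            + 4 * (lam * (b ^ 4 + cw * b ^ 2) + 9 / 4 * lam * v * b ^ 3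
              + Tilt.rbs lam Δ s * t * b ^ 2 + 2 * lam * t ^ 2)
            + (4 * e * (b ^ 3 + s * (2 * b * w + 2 * s) + v ^ 2)
              + 4 * (2 * lam * t) * (s * (2 * b * w + 2 * s) + v ^ 2)
              + 18 * ((t + s ^ 2) * (b ^ 3 + 2 * (s * (2 * b * w + 2 * s)) + v ^ 2))
              + 30 * (b ^ 4 + 2 * (s * v) ^ 2)))
        + 3 * (343 * b ^ 6 + 350 * (s * (2 * b * w + 2 * s)) ^ 2 + 175 * v ^ 4 + 2800 * w ^ 4
          + 5600 * (s ^ 4 * v ^ 4)) := by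
  have hl := hT.lam0
  have hA := adm_subset F forb Zp Zm
  have hadm := adm_pairOK (F := F) (forb := forb) hP
  have hh : ∀ p ∈ adm F forb Zp Zm, |Tilt.hT F forb Zp Zm lam p.1 p.2| ≤ 1 / 2 :=
    fun p _ => Tilt.abs_hT_le_half hl _ _
  have hH0 : 0 ≤ 2 * lam * t := mul_nonneg (by positivity) c.t0
  have m1 := T2_mean' c hA hadm hh he hH0 hE (tw.sum_hT_sq_le hT _)
  have m2 := T2_sq' c hA hadm
  have m3 := tw.tilt_T2 hT hP
  rw [hN] at m1
  have key : |∑ p ∈ adm F forb Zp Zm, (1 - Tilt.hT F forb Zp Zm lam p.1 p.2) *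
      (((upd Z p.1 p.2 ^ 2).trace - (Z ^ 2).trace + 2) - 0)|
      ≤ 4 * (|Z.trace| * |(Z ^ 3).trace|) + 4 * |Z.trace| ^ 2
            + 2 * |(Z ^ 2).trace - N| ^ 2
            + 4 * (lam * (b ^ 4 + cw * b ^ 2) + 9 / 4 * lam * v * b ^ 3
              + Tilt.rbs lam Δ s * t * b ^ 2 + 2 * lam * t ^ 2)
            + (4 * e * (b ^ 3 + s * (2 * b * w + 2 * s) + v ^ 2)
              + 4 * (2 * lam * t) * (s * (2 * b * w + 2 * s) + v ^ 2)
              + 18 * ((t + s ^ 2) * (b ^ 3 + 2 * (s * (2 * b * w + 2 * s)) + v ^ 2))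
              + 30 * (b ^ 4 + 2 * (s * v) ^ 2)) := by
    simp only [sub_zero]
    have a1 : |Z.trace * (Z ^ 3).trace| = |Z.trace| * |(Z ^ 3).trace| := abs_mul _ _
    have a2 : |Z.trace| ^ 2 = Z.trace ^ 2 := sq_abs _
    have a3 : |(Z ^ 2).trace - N| ^ 2 = ((Z ^ 2).trace - N) ^ 2 := sq_abs _
    have a1' := abs_le.1 a1.le
    rw [a2, a3]
    have s1 := sq_nonneg Z.trace
    have s2 := sq_nonneg ((Z ^ 2).trace - N)
    rw [abs_le] at m1 m3 ⊢
    constructor <;> linarith [m1.1, m1.2, m3.1, m3.2, a1'.1, a1'.2]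
  have fin := sq_step (adm F forb Zp Zm) (fun p => 1 - Tilt.hT F forb Zp Zm lam p.1 p.2)
    (fun p => (upd Z p.1 p.2 ^ 2).trace - (Z ^ 2).trace + 2) (om_bd hh) hx key m2
  have e3 : ∀ p : ι × ι, ((upd Z p.1 p.2 ^ 2).trace - (N - 2) - tD) ^ 2
      - ((Z ^ 2).trace - N - tD) ^ 2 = ((Z ^ 2).trace - N - tD
        + (((upd Z p.1 p.2 ^ 2).trace - (Z ^ 2).trace + 2) - 0)) ^ 2
        - ((Z ^ 2).trace - N - tD) ^ 2 := fun p => by ring
  simp only [e3]
  have z : (0 : ℝ) ^ 2 = 0 := by norm_num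
  rw [z, mul_zero, mul_zero, add_zero] at fin
  exact fin

/-- **D, untilted phase**, abstract form: `t₁ = -K₁`, `dt = -2 K₁ kap (1/(N-2) - 1/N)`. -/
theorem D_rate_II (c : Ctl F Z b t s v w) (hP : Tilt.IsPair Zp Zm Z Z')
    {N kap K1 tD dt δ : ℝ} (heps : eps = 1 ∨ eps = -1) (hN : (F.card : ℝ) = N) (hN2 : 2 < N)
    (he : 0 ≤ e) (hE : (((F ×ˢ F) \ adm F forb Zp Zm).card : ℝ) ≤ e ^ 2)
    (hx : |(Z ^ 2).trace - N - tD| ≤ δ) (hk : 0 ≤ kap) (hK : 0 ≤ K1)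
    (hdt : dt = -(2 * K1 * kap * (1 / (N - 2) - 1 / N))) :
    ∑ p ∈ adm F forb Zp Zm,
        (((upd Z p.1 p.2 ^ 2).trace - (N - 2) - (tD + dt)) ^ 2
          - ((Z ^ 2).trace - N - tD) ^ 2)
      ≤ 2 * δ * (4 * (|eps * Z.trace - -K1| * kap) + 4 * (K1 * |eps * (Z ^ 3).trace - kap|)
            + 4 * (|eps * Z.trace - -K1| * |eps * (Z ^ 3).trace - kap|)
            + 8 * (K1 * kap / (N - 2)) + 4 * |eps * Z.trace| ^ 2
            + 2 * |(Z ^ 2).trace - N| ^ 2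
            + (4 * e * (b ^ 3 + s * (2 * b * w + 2 * s) + v ^ 2)
              + 18 * ((t + s ^ 2) * (b ^ 3 + 2 * (s * (2 * b * w + 2 * s)) + v ^ 2))
              + 30 * (b ^ 4 + 2 * (s * v) ^ 2))
            + 4 * (K1 * kap / (N * (N - 2))) * e ^ 2)
        + 3 * (343 * b ^ 6 + 350 * (s * (2 * b * w + 2 * s)) ^ 2 + 175 * v ^ 4 + 2800 * w ^ 4
          + 5600 * (s ^ 4 * v ^ 4))
        + 3 * (N ^ 2 * (4 * (K1 * kap / (N * (N - 2)))) ^ 2) := by
  have hA := adm_subset F forb Zp Zm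
  have hadm := adm_pairOK (F := F) (forb := forb) hP
  have m1 := T2_mean' (h := fun _ _ => 0) c hA hadm (fun p _ => by norm_num) he le_rfl hE
    (by simp)
  have m2 := T2_sq' c hA hadm
  simp only [sub_zero, one_mul, zero_mul, Finset.sum_const_zero, mul_zero, add_zero] at m1
  rw [hN] at m1
  have hNpos : 0 < N := by linarith
  have hN2pos : 0 < N - 2 := by linarith
  have edt : dt = -(4 * (K1 * kap / (N * (N - 2)))) := by
    rw [hdt]; field_simp; ring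
  have eabs : |dt| = 4 * (K1 * kap / (N * (N - 2))) := by
    rw [edt, abs_neg, abs_of_nonneg (by positivity)]
  have m4 := sum_om_sub (h := fun _ _ => 0) (Hs := 0) hA hE (by simp)
  rw [hN] at m4
  simp only [sub_zero, add_zero] at m4
  have m5 := dt_bd (dt := dt) m4
  rw [eabs] at m5
  have edtN : dt * N ^ 2 = -(4 * (K1 * kap)) - 8 * (K1 * kap / (N - 2)) := by
    rw [edt]; field_simp; ring
  set S1 := ∑ p ∈ adm F forb Zp Zm, ((upd Z p.1 p.2 ^ 2).trace - (Z ^ 2).trace + 2) with hS1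
  set So := ∑ p ∈ adm F forb Zp Zm, (1 : ℝ) with hSo
  have key : |∑ p ∈ adm F forb Zp Zm, (1 : ℝ) *
      (((upd Z p.1 p.2 ^ 2).trace - (Z ^ 2).trace + 2) - dt)|
      ≤ 4 * (|eps * Z.trace - -K1| * kap) + 4 * (K1 * |eps * (Z ^ 3).trace - kap|)
            + 4 * (|eps * Z.trace - -K1| * |eps * (Z ^ 3).trace - kap|)
            + 8 * (K1 * kap / (N - 2)) + 4 * |eps * Z.trace| ^ 2
            + 2 * |(Z ^ 2).trace - N| ^ 2
            + (4 * e * (b ^ 3 + s * (2 * b * w + 2 * s) + v ^ 2)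
              + 18 * ((t + s ^ 2) * (b ^ 3 + 2 * (s * (2 * b * w + 2 * s)) + v ^ 2))
              + 30 * (b ^ 4 + 2 * (s * v) ^ 2))
            + 4 * (K1 * kap / (N * (N - 2))) * e ^ 2 := by
    have e1 : ∑ p ∈ adm F forb Zp Zm, (1 : ℝ) *
        (((upd Z p.1 p.2 ^ 2).trace - (Z ^ 2).trace + 2) - dt) = S1 - dt * So := by
      rw [hS1, hSo, Finset.mul_sum, ← Finset.sum_sub_distrib]
      exact Finset.sum_congr rfl fun p _ => by ring
    rw [e1]
    have e2 : S1 - dt * So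
        = (S1 - (4 * (Z.trace * ((Z ^ 3).trace - Z.trace)) + 2 * ((Z ^ 2).trace - N) ^ 2))
          + 4 * ((eps * Z.trace - -K1) * kap) - 4 * (K1 * (eps * (Z ^ 3).trace - kap))
          + 4 * ((eps * Z.trace - -K1) * (eps * (Z ^ 3).trace - kap))
          - 4 * (eps * Z.trace) ^ 2 + 2 * ((Z ^ 2).trace - N) ^ 2
          + 8 * (K1 * kap / (N - 2)) - (dt * So - dt * N ^ 2) := by
      rw [edtN, eps_sq heps]
      have := eps_cube heps Z.trace (Z ^ 3).trace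
      linear_combination 4 * this
    rw [e2]
    have n1 : |(eps * Z.trace - -K1) * kap| = |eps * Z.trace - -K1| * kap := by
      rw [abs_mul, abs_of_nonneg hk]
    have n2 : |K1 * (eps * (Z ^ 3).trace - kap)| = K1 * |eps * (Z ^ 3).trace - kap| := by
      rw [abs_mul, abs_of_nonneg hK]
    have n3 : |(eps * Z.trace - -K1) * (eps * (Z ^ 3).trace - kap)|
        = |eps * Z.trace - -K1| * |eps * (Z ^ 3).trace - kap| := abs_mul _ _
    have a2 : |eps * Z.trace| ^ 2 = (eps * Z.trace) ^ 2 := sq_abs _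
    have a3 : |(Z ^ 2).trace - N| ^ 2 = ((Z ^ 2).trace - N) ^ 2 := sq_abs _
    have n5' : 0 ≤ 8 * (K1 * kap / (N - 2)) := by positivity
    have s1 := sq_nonneg (eps * Z.trace)
    have s2 := sq_nonneg ((Z ^ 2).trace - N)
    have n1' := abs_le.1 n1.le
    have n2' := abs_le.1 n2.le
    have n3' := abs_le.1 n3.le
    rw [a2, a3]
    rw [abs_le] at m1 m5 ⊢
    constructor <;> linarith [m1.1, m1.2, m5.1, m5.2, n1'.1, n1'.2, n2'.1, n2'.2, n3'.1, n3'.2]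
  have fin := sq_step (adm F forb Zp Zm) (fun _ => (1 : ℝ))
    (fun p => (upd Z p.1 p.2 ^ 2).trace - (Z ^ 2).trace + 2)
    (fun p _ => by norm_num) hx key m2
  have hc : ((adm F forb Zp Zm).card : ℝ) ≤ N ^ 2 := by
    have := Finset.card_le_card hA
    rw [Finset.card_product] at this
    rw [← hN]
    calc ((adm F forb Zp Zm).card : ℝ) ≤ ((F.card * F.card : ℕ) : ℝ) := by exact_mod_cast this
      _ = _ := by push_cast; ring
  have hc2 : ((adm F forb Zp Zm).card : ℝ) * dt ^ 2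
      ≤ N ^ 2 * (4 * (K1 * kap / (N * (N - 2)))) ^ 2 := by
    rw [← sq_abs dt, eabs]
    exact mul_le_mul_of_nonneg_right hc (sq_nonneg _)
  have e3 : ∀ p : ι × ι, ((upd Z p.1 p.2 ^ 2).trace - (N - 2) - (tD + dt)) ^ 2
      - ((Z ^ 2).trace - N - tD) ^ 2 = 1 * (((Z ^ 2).trace - N - tD
        + (((upd Z p.1 p.2 ^ 2).trace - (Z ^ 2).trace + 2) - dt)) ^ 2
        - ((Z ^ 2).trace - N - tD) ^ 2) := fun p => by ring
  simp only [e3]
  linarith

end Vale.Agent.P049.TS.Rate
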