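import Mathlib

/-!
Monomials `σ^a N^b = exp (a L + b X)` with real exponents, `L = log σ`, `X = log N`.
-/

namespace Vale.Agent.P049.TS.Rate

/-- the monomial `σ^a N^b` with `σ = exp L`, `N = exp X` -/
noncomputable def mo (L X a b : ℝ) : ℝ := Real.exp (a * L + b * X)

variable {L X : ℝ}

theorem mo_pos (L X a b : ℝ) : 0 < mo L X a b := Real.exp_pos _

theorem mo_nonneg (L X a b : ℝ) : 0 ≤ mo L X a b := (Real.exp_pos _).le

theorem mo_mul (L X a b a' b' : ℝ) : mo L X a b * mo L X a' b' = mo L X (a + a') (b + b') := by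
  unfold mo
  rw [← Real.exp_add]
  congr 1
  ring

theorem mo_pow (L X a b : ℝ) (n : ℕ) : mo L X a b ^ n = mo L X (n * a) (n * b) := by
  unfold mo
  rw [← Real.exp_nat_mul]
  congr 1
  ring

theorem mo_zero (L X : ℝ) : mo L X 0 0 = 1 := by simp [mo]

theorem mo_le {a b a' b' : ℝ} (h : a * L + b * X ≤ a' * L + b' * X) :
    mo L X a b ≤ mo L X a' b' := Real.exp_le_exp.2 h

theorem mo_inv (L X a b : ℝ) : (mo L X a b)⁻¹ = mo L X (-a) (-b) := by
  unfold mo
  rw [← Real.exp_neg]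
  congr 1
  ring

theorem mo_div (L X a b a' b' : ℝ) : mo L X a b / mo L X a' b' = mo L X (a - a') (b - b') := by
  unfold mo
  rw [← Real.exp_sub]
  congr 1
  ring

theorem mo_sqrt (L X a b : ℝ) : √(mo L X a b) = mo L X (a / 2) (b / 2) := by
  rw [Real.sqrt_eq_iff_mul_self_eq (mo_nonneg _ _ _ _) (mo_nonneg _ _ _ _), mo_mul]
  congr 1 <;> ring

end Vale.Agent.P049.TS.Rate
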