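import Vale.Agent.P049.TS.Rate.VNum
import Vale.Agent.P049.TS.W.HT4
import Vale.Agent.P049.TS.Rate.RT1

/-!
The rate lemma of the potential `fV` (of `V = Σ (w_a - 1)²`) in the phases I and II.
-/

set_option linter.unusedSectionVars false
set_option exponentiation.threshold 3000

namespace Vale.Agent.P049.TS.RV

open Matrix Finset A480 WtA

variable {ι : Type*} [Fintype ι] [DecidableEq ι]
variable {F : Finset ι} {forb : ι → ι → Prop} {Z Z' Zp Zm : Matrix ι ι ℝ}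
  {b t s v w r z n G y D q iN Dl lam cw p u m e : ℝ}

theorem Q4_bd (h : Pr F Z b t s v w r z n) (sg : Sg F Z m e) (he : e = 1 ∨ e = -1)
    (hm0 : 0 < m) (hm1 : m ≤ 5 / 7) (hD : |(Z ^ 2).trace - F.card| ≤ D)
    (hq : |e * Z.trace| ≤ q) (hiN : iN = 1 / (F.card : ℝ)) :
    A480.Q4 F Z ≤ 8 / 15 * F.card + (D + 2 * (q + s * v) + s ^ 2 * (1 + v) + s ^ 4 + 2 * iN * (3 * t ^ 2 + 2 * (s * w) + w ^ 2)) := by
  have hN : (0 : ℝ) < F.card := by exact_mod_cast sg.card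
  have h1 := sg.Q4_le_V he hm0 (by linarith) h.c.s0 h.c.v0 h.c.w0 h.c.S h.c.V h.c.W
  have h1' : A480.Q4 F Z ≤ _ := h1
  refine h1'.trans ?_
  have hD1 := abs_le.1 hD
  have hD0 : 0 ≤ D := (abs_nonneg _).trans hD
  have hq0 : 0 ≤ q := (abs_nonneg _).trans hq
  have h2 : e * Z.trace ≤ q := (le_abs_self _).trans hq
  have h3 : m ^ 2 ≤ 8 / 15 := by nlinarith
  have hsv : 0 ≤ s * v := mul_nonneg h.c.s0 h.c.v0
  have h4 : m ^ 2 * (Z ^ 2).trace ≤ 8 / 15 * F.card + D := by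
    calc m ^ 2 * (Z ^ 2).trace ≤ m ^ 2 * (F.card + D) :=
          mul_le_mul_of_nonneg_left (by linarith) (sq_nonneg m)
      _ ≤ 8 / 15 * (F.card + D) := mul_le_mul_of_nonneg_right h3 (by linarith)
      _ ≤ _ := by linarith
  have h5 : 2 * m * (e * Z.trace + s * v) ≤ 2 * (q + s * v) := by
    calc 2 * m * (e * Z.trace + s * v) ≤ 2 * m * (q + s * v) :=
          mul_le_mul_of_nonneg_left (by linarith) (by linarith)
      _ ≤ 2 * (q + s * v) := by nlinarith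
  have h6 : 2 / (F.card : ℝ) * (3 * (Z ^ 2).trace + 2 * (s * w) + w ^ 2)
      ≤ 2 * iN * (3 * t ^ 2 + 2 * (s * w) + w ^ 2) := by
    rw [hiN, mul_one_div]
    exact mul_le_mul_of_nonneg_left (by linarith [h.c.T2]) (by positivity)
  linarith

theorem RQ_nonneg (h : Pr F Z b t s v w r z n) (hD : |(Z ^ 2).trace - F.card| ≤ D)
    (hq : |e * Z.trace| ≤ q) (hiN : iN = 1 / (F.card : ℝ)) :
    0 ≤ (D + 2 * (q + s * v) + s ^ 2 * (1 + v) + s ^ 4 + 2 * iN * (3 * t ^ 2 + 2 * (s * w) + w ^ 2)) := by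
  have h1 := h.c.s0
  have h2 := h.c.v0
  have h3 := h.c.w0
  have h4 : 0 ≤ q := (abs_nonneg _).trans hq
  have h5 : 0 ≤ D := (abs_nonneg _).trans hD
  have h6 : 0 ≤ iN := by rw [hiN]; positivity
  positivity

/-- phase I -/
theorem V_rate_I (h : Pr F Z b t s v w r z n) (h2 : Tilt.Two F Zp Zm b t s v cw)
    (hP : Tilt.IsPair Zp Zm Z Z') (hp1 : RowB F Zp s v) (hp2 : RowB F Zm s v)
    (hZ : Z = Zp ∨ Z = Zm) (hT : Tilt.TPar F forb lam Dl) (sg : Sg F Z m e)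
    (he : e = 1 ∨ e = -1) (hm0 : 0 < m) (hm1 : m ≤ 5 / 7) (hG0 : 0 ≤ G)
    (hG : 1 + Dl + 128 * (1 + v) + 128 * s ^ 4 + (4 * lam) ^ 2 ≤ G ^ 2) (hy0 : 0 ≤ y)
    (hy : z * r * w ≤ y ^ 2) (hD : |(Z ^ 2).trace - F.card| ≤ D)
    (hq : |e * Z.trace| ≤ q) (hiN : iN = 1 / (F.card : ℝ)) (hp0 : 0 ≤ p) (hp : v ^ 3 ≤ p ^ 2) :
    ∑ x ∈ adm F forb Zp Zm, (1 - Tilt.hT F forb Zp Zm lam x.1 x.2)
        * (Vt 1 ((F.erase x.1).erase x.2) (upd Z x.1 x.2) - Vt 1 F Z) ≤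
      2 * (n * G) * v ^ 2 + 15 / 4 * (((D + 2 * (q + s * v) + s ^ 2 * (1 + v) + s ^ 4 + 2 * iN * (3 * t ^ 2 + 2 * (s * w) + w ^ 2)) + y ^ 2) * v ^ 2) + 8 * D
        + 8 * (q * (b * (v * w))) + 4 * (D * (v ^ 2 + D))
        + (8 * ((1 + Dl + 128 * (1 + v) + 128 * s ^ 4) * b * (v * w)) + 8 * (lam * (b ^ 4 + cw * (3 * b ^ 2 + 6 / 5 * (b * p)) + 21 / 2 * (b ^ 2 * v ^ 2)
          + 3 * (b * v ^ 3)) + Tilt.rbs lam Dl s * b * v * w)) + 2 * v * A480.FE b t s v w r n G + 210 * A480.QB b s v w r z y := by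
  classical
  rw [← sum_omf (F := F) (forb := forb) (Zp := Zp) (Zm := Zm)
    (h := Tilt.hT F forb Zp Zm lam)
    fun a c => Vt 1 ((F.erase a).erase c) (upd Z a c) - Vt 1 F Z]
  have hw := wt_omf (forb := forb) (h := Tilt.hT F forb Zp Zm lam) hp1 hp2 hT.symm hT.card
    (Tilt.abs_hT_le_half hT.lam0)
    (fun a c => ((Tilt.hT_isSymm hp1.symm hp2.symm hT.symm).apply a c).symm)
    (fun a _ => (Finset.sum_le_sum_of_subset_of_nonneg (Finset.subset_univ F)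
      fun _ _ _ => sq_nonneg _).trans (Wd4.row_hT_sq hT.lam0 hp1.symm hp2.symm a)) hG0 hG hZ
  have hX1 := T1_term_crude h (show |Z.trace| ≤ q by
    rw [← Rate.eps_abs_mul he]; exact hq)
  have hex := ex_term h 1 h.c.v0 h.c.V hp1 hp2 hT.symm hT.Δ0 hT.card
  have htl := h2.tilt_V hT hP hp0 hp h.c.w0 h.c.W
  have hX2 : -(8 * ∑ a ∈ F, ∑ c ∈ F,
      (1 - omf F forb Zp Zm (Tilt.hT F forb Zp Zm lam) a c) * rt 1 F Z a c)
      ≤ (8 * ((1 + Dl + 128 * (1 + v) + 128 * s ^ 4) * b * (v * w)) + 8 * (lam * (b ^ 4 + cw * (3 * b ^ 2 + 6 / 5 * (b * p)) + 21 / 2 * (b ^ 2 * v ^ 2)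
          + 3 * (b * v ^ 3)) + Tilt.rbs lam Dl s * b * v * w)) := by
    rw [fo_tilt h 1 hp1.symm hp2.symm hT.symm]
    have e1 : ∑ c ∈ F, ((Z ^ 2) c c - 1) * (Z * Tilt.hT F forb Zp Zm lam * Z ^ 2) c c
        = ∑ i ∈ F, ((Z ^ 2) i i - 1) * (Z * Tilt.hT F forb Zp Zm lam * Z ^ 2) i i := rfl
    have := (abs_le.1 hex).1
    linarith
  exact V_core h hw hy0 hy hD (Q4_bd h sg he hm0 hm1 hD hq hiN) (RQ_nonneg h hD hq hiN) hX1 hX2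

/-- phase II -/
theorem V_rate_II (h : Pr F Z b t s v w r z n) (hp1 : RowB F Zp s v) (hp2 : RowB F Zm s v)
    (hZ : Z = Zp ∨ Z = Zm) (hT : Tilt.TPar F forb lam Dl) (sg : Sg F Z m e)
    (he : e = 1 ∨ e = -1) (hm0 : 0 < m) (hm1 : m ≤ 5 / 7) (hG0 : 0 ≤ G)
    (hG : 1 + Dl + 128 * (1 + v) + 128 * s ^ 4 + 0 ≤ G ^ 2) (hy0 : 0 ≤ y)
    (hy : z * r * w ≤ y ^ 2) (hD : |(Z ^ 2).trace - F.card| ≤ D)
    (hq : |e * Z.trace| ≤ q) (hiN : iN = 1 / (F.card : ℝ))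
    (hT1 : e * Z.trace ≤ 0) (hT3 : e * (Z ^ 3).trace ≤ u) (hu : 0 ≤ u) :
    ∑ x ∈ adm F forb Zp Zm, (Vt 1 ((F.erase x.1).erase x.2) (upd Z x.1 x.2) - Vt 1 F Z) ≤
      2 * (n * G) * v ^ 2 + 15 / 4 * (((D + 2 * (q + s * v) + s ^ 2 * (1 + v) + s ^ 4 + 2 * iN * (3 * t ^ 2 + 2 * (s * w) + w ^ 2)) + y ^ 2) * v ^ 2) + 8 * D
        + 8 * (q * (u + w ^ 2 + t ^ 2 * iN)) + 4 * (D * (v ^ 2 + D))
        + 8 * ((1 + Dl + 128 * (1 + v) + 128 * s ^ 4) * b * (v * w)) + 2 * v * A480.FE b t s v w r n G + 210 * A480.QB b s v w r z y := by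
  classical
  have e0 : ∑ x ∈ adm F forb Zp Zm,
        (Vt 1 ((F.erase x.1).erase x.2) (upd Z x.1 x.2) - Vt 1 F Z)
      = ∑ x ∈ adm F forb Zp Zm, (1 - (fun _ _ => (0 : ℝ)) x.1 x.2)
        * (Vt 1 ((F.erase x.1).erase x.2) (upd Z x.1 x.2) - Vt 1 F Z) := by
    simp
  rw [e0, ← sum_omf (F := F) (forb := forb) (Zp := Zp) (Zm := Zm) (h := fun _ _ => (0 : ℝ))
    fun a c => Vt 1 ((F.erase a).erase c) (upd Z a c) - Vt 1 F Z]
  have hw := wt_omf (F := F) (forb := forb) (h := fun _ _ => (0 : ℝ)) (H := 0) hp1 hp2 hT.symm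
    hT.card (fun _ _ => by norm_num) (fun _ _ => rfl) (fun _ _ => by simp) hG0 hG hZ
  have hX1 : 8 * (Z.trace * ∑ i ∈ F, ((Z ^ 2) i i - 1) * (Z ^ 3) i i)
      ≤ 8 * (q * (u + w ^ 2 + t ^ 2 * iN)) := by
    have := T1_term_sign h sg he hm0.le (by linarith) hT1 hq hT3 hu
    rw [hiN, mul_one_div]
    exact this
  have hex := ex_term h 1 h.c.v0 h.c.V hp1 hp2 hT.symm hT.Δ0 hT.card
  have hX2 : -(8 * ∑ a ∈ F, ∑ c ∈ F,
      (1 - omf F forb Zp Zm (fun _ _ => 0) a c) * rt 1 F Z a c)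
      ≤ 8 * ((1 + Dl + 128 * (1 + v) + 128 * s ^ 4) * b * (v * w)) := by
    rw [fo_unif 1]
    have := (abs_le.1 hex).1
    linarith
  exact V_core h hw hy0 hy hD (Q4_bd h sg he hm0 hm1 hD hq hiN) (RQ_nonneg h hD hq hiN) hX1 hX2

end Vale.Agent.P049.TS.RV
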