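import Vale.Agent.P049.TS.Rate.T1

/-!
Rate lemmas for `T₁` and `D = T₂ - N`, with the numbers of the frozen table.

`σ = s` (the scale, `s^1000 ≤ n < (s+1)^1000`), `N = #F`, `K ≥ 1` a constant (depends on `d`).
-/

set_option linter.unusedSectionVars false

namespace Vale.Agent.P049.TS.Rate

open Matrix Finset D12

variable {σ N K b t s v w cw e lam kap Δ x : ℝ}

/-- the numbers common to all rate lemmas -/
structure Num (σ N K b t s v w e : ℝ) : Prop where
  σ2 : 2 ≤ σ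
  K1 : 1 ≤ K
  N1 : σ ^ 699 ≤ N
  NU : N ≤ K * σ ^ 1000
  b0 : 0 ≤ b
  t0 : 0 ≤ t
  s0 : 0 ≤ s
  v0 : 0 ≤ v
  w0 : 0 ≤ w
  e0 : 0 ≤ e
  hb : b ^ 4 ≤ σ ^ 2003 / N
  ht : t ^ 2 ≤ 4 * N
  hs : s ^ 2 ≤ σ ^ 80
  hw : w ^ 2 ≤ 4 * N
  he : e ^ 2 ≤ K ^ 2 * N

theorem Num.σ0 (h : Num σ N K b t s v w e) : 0 < σ := by linarith [h.σ2]

theorem Num.L0 (h : Num σ N K b t s v w e) : 0 ≤ Real.log σ :=
  Real.log_nonneg (by linarith [h.σ2])

theorem Num.N4 (h : Num σ N K b t s v w e) : 4 ≤ N := by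
  refine le_trans ?_ h.N1
  calc (4 : ℝ) = 2 ^ 2 := by norm_num
    _ ≤ σ ^ 2 := pow_le_pow_left₀ (by norm_num) h.σ2 2
    _ ≤ σ ^ 699 := pow_le_pow_right₀ (by linarith [h.σ2]) (by norm_num)

theorem Num.N0 (h : Num σ N K b t s v w e) : 0 < N := by linarith [h.N4]

theorem log_ge_of_pow_le {m : ℕ} (hσ : 0 < σ) (h : σ ^ m ≤ N) :
    (m : ℝ) * Real.log σ ≤ Real.log N := by
  rw [← Real.log_pow]
  exact Real.log_le_log (by positivity) h

theorem Num.X0 (h : Num σ N K b t s v w e) : 699 * Real.log σ ≤ Real.log N := by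
  have := log_ge_of_pow_le h.σ0 h.N1
  exact_mod_cast this

theorem Num.powσ (h : Num σ N K b t s v w e) (m : ℕ) :
    Bd (Real.log σ) (Real.log N) (σ ^ m) 1 m 0 := Bd.powσ h.σ0 _ m

/-- bound of a nonnegative number by `c σ^m` -/
theorem bd_of_le_powσ (hσ : 0 < σ) {c : ℝ} {m : ℕ} (hc : 0 ≤ c) (hx : 0 ≤ x)
    (h : x ≤ c * σ ^ m) (X : ℝ) : Bd (Real.log σ) X x c m 0 :=
  ⟨hx, hc, by rw [← pow_eq_mo hσ X m]; exact h⟩

theorem Num.Bb (h : Num σ N K b t s v w e) :
    Bd (Real.log σ) (Real.log N) b 1 (2003 / 4) (-1 / 4) := by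
  refine Bd.of_pow (n := 4) (by norm_num) h.b0 zero_le_one ?_
  rw [one_mul, mo_pow]
  refine h.hb.trans (le_of_eq ?_)
  rw [pow_eq_mo h.σ0 (Real.log N) 2003]
  nth_rewrite 2 [self_eq_mo h.N0 (Real.log σ)]
  rw [mo_div]
  congr 1 <;> norm_num

theorem Bd.of_sq {L X c a b' : ℝ} (hx : 0 ≤ x) (hc : 0 ≤ c)
    (h : x ^ 2 ≤ c ^ 2 * mo L X (2 * a) (2 * b')) : Bd L X x c a b' := by
  refine Bd.of_pow (n := 2) (by norm_num) hx hc ?_
  rw [mul_pow, mo_pow]
  exact_mod_cast h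

theorem Num.moN (h : Num σ N K b t s v w e) : mo (Real.log σ) (Real.log N) 0 1 = N :=
  (self_eq_mo h.N0 _).symm

theorem Num.Bt (h : Num σ N K b t s v w e) :
    Bd (Real.log σ) (Real.log N) t 2 0 (1 / 2) := by
  refine Bd.of_sq h.t0 (by norm_num) ?_
  have e1 : (2 : ℝ) * (1 / 2) = 1 := by norm_num
  rw [mul_zero, e1, h.moN]
  linarith [h.ht]

theorem Num.Bw (h : Num σ N K b t s v w e) :
    Bd (Real.log σ) (Real.log N) w 2 0 (1 / 2) := by
  refine Bd.of_sq h.w0 (by norm_num) ?_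
  have e1 : (2 : ℝ) * (1 / 2) = 1 := by norm_num
  rw [mul_zero, e1, h.moN]
  linarith [h.hw]

theorem Num.Be (h : Num σ N K b t s v w e) :
    Bd (Real.log σ) (Real.log N) e K 0 (1 / 2) := by
  refine Bd.of_sq h.e0 (by linarith [h.K1]) ?_
  have e1 : (2 : ℝ) * (1 / 2) = 1 := by norm_num
  rw [mul_zero, e1, h.moN]
  exact h.he

theorem Num.Bs (h : Num σ N K b t s v w e) :
    Bd (Real.log σ) (Real.log N) s 1 40 0 := by
  refine Bd.of_sq h.s0 (by norm_num) ?_
  refine h.hs.trans (le_of_eq ?_)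
  rw [pow_eq_mo h.σ0 (Real.log N) 80, one_pow, one_mul]
  norm_num

/-- `1/(N-2) ≤ 2/N` -/
theorem Num.BN2 (h : Num σ N K b t s v w e) :
    Bd (Real.log σ) (Real.log N) (1 / (N - 2)) 2 0 (-1) := by
  have h4 := h.N4
  have h0 := (Bd.invN h.N0 (Real.log σ)).smul (k := 2) (by norm_num)
  rw [mul_one] at h0
  refine h0.mono (by apply div_nonneg <;> linarith) ?_
  rw [mul_one_div, div_le_div_iff₀ (by linarith) (by linarith)]
  linarith

theorem Num.BiN (h : Num σ N K b t s v w e) :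
    Bd (Real.log σ) (Real.log N) (1 / N) 1 0 (-1) := Bd.invN h.N0 _


theorem Num.pN (h : Num σ N K b t s v w e) (m : ℕ) :
    σ ^ m * N = mo (Real.log σ) (Real.log N) m 1 := by
  rw [pow_eq_mo h.σ0 (Real.log N) m]
  have e1 : mo (Real.log σ) (Real.log N) (m : ℝ) 0 * mo (Real.log σ) (Real.log N) 0 1
      = mo (Real.log σ) (Real.log N) m 1 := by
    rw [mo_mul, add_zero, zero_add]
  rw [h.moN] at e1
  exact e1

theorem Num.of_sq1 (h : Num σ N K b t s v w e) {c : ℝ} {m : ℕ} (hx : 0 ≤ x) (hc : 0 ≤ c)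
    (hx2 : x ^ 2 ≤ c ^ 2 * σ ^ (2 * m)) : Bd (Real.log σ) (Real.log N) x c m 0 := by
  refine Bd.of_sq hx hc (hx2.trans (le_of_eq ?_))
  rw [pow_eq_mo h.σ0 (Real.log N)]
  push_cast
  rw [mul_zero]

theorem Num.of_sqN (h : Num σ N K b t s v w e) {c : ℝ} {m : ℕ} (hx : 0 ≤ x) (hc : 0 ≤ c)
    (hx2 : x ^ 2 ≤ c ^ 2 * (σ ^ (2 * m) * N)) :
    Bd (Real.log σ) (Real.log N) x c m (1 / 2) := by
  refine Bd.of_sq hx hc (hx2.trans (le_of_eq ?_))
  rw [h.pN]
  push_cast
  norm_num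

/-- final form: `x ≤ c σ^(m-2) N` gives `x / σ^m ≤ c N / σ²` -/
theorem Bd.final (h : Num σ N K b t s v w e) {m : ℕ} {c : ℝ}
    (hx : Bd (Real.log σ) (Real.log N) x c (m - 2) 1) : x / σ ^ m ≤ c * (N / σ ^ 2) := by
  have hσ := h.σ0
  rw [div_le_iff₀ (by positivity)]
  refine hx.le.trans (le_of_eq ?_)
  have e1 : mo (Real.log σ) (Real.log N) (m - 2) 1 * σ ^ 2 = σ ^ m * N := by
    rw [h.pN, pow_eq_mo hσ (Real.log N) 2, mo_mul]
    push_cast
    congr 1 <;> ring
  have hσ2 : σ ^ 2 ≠ 0 := by positivity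
  rw [mul_assoc, div_mul_eq_mul_div, mul_comm N, ← e1, mul_div_assoc, div_self hσ2, mul_one]

theorem bd_rbs (h : Num σ N K b t s v w e) (hΔ : Δ ≤ K) (hΔ0 : 0 ≤ Δ) (hl : lam = σ ^ 186) :
    Bd (Real.log σ) (Real.log N) (Tilt.rbs lam Δ s) (232 * K) 372 0 := by
  have hK := h.K1
  have hL := h.L0
  have Bl : Bd (Real.log σ) (Real.log N) lam 1 186 0 := by
    rw [hl]; exact_mod_cast h.powσ 186
  unfold Tilt.rbs
  have b1 : Bd (Real.log σ) (Real.log N) (32 * lam ^ 2) 32 372 0 :=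
    ((Bl.pow 2).smul (by norm_num)).to (by push_cast; linarith) (by norm_num)
  have b2 : Bd (Real.log σ) (Real.log N) ((4 * (1 + Δ) + 128 + 64 * s ^ 2) * lam)
      (4 * K + 132 + 64) 372 0 := by
    have e1 : (4 * (1 + Δ) + 128 + 64 * s ^ 2) * lam
        = (4 * (1 + Δ) + 128) * lam + 64 * (s ^ 2 * lam) := by ring
    rw [e1]
    have b3 : Bd (Real.log σ) (Real.log N) ((4 * (1 + Δ) + 128) * lam) (4 * K + 132) 372 0 :=
      (Bl.smul (by linarith)).to (by linarith) (by linarith)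
    have b4 : Bd (Real.log σ) (Real.log N) (64 * (s ^ 2 * lam)) 64 372 0 :=
      (((h.Bs.pow 2).mul Bl).smul (by norm_num)).to (by push_cast; linarith) (by norm_num)
    exact b3.add b4
  exact (b1.add b2).to le_rfl (by linarith)

/-- numerical form of `T1_rate_I` -/
theorem T1_num_I (h : Num σ N K b t s v w e) (hN : σ ^ 802 ≤ N) (hv : v ^ 2 ≤ σ ^ 610)
    (hcw : cw ^ 2 ≤ σ ^ 60 * N) (hcw0 : 0 ≤ cw) (hl : lam = σ ^ 186) (hΔ : Δ ≤ K)
    (hΔ0 : 0 ≤ Δ) (hkap : kap ≤ K * σ ^ 1000) (hkap0 : 0 ≤ kap) {T1 T3 D : ℝ}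
    (hT1 : |T1| ≤ K * σ ^ 384) (hD : |D| ≤ σ ^ 683) (hT3 : |T3 - kap| ≤ σ ^ 950) :
    (2 * σ ^ 377 * (2 * (|T1| * |D|)
            + 2 * lam * |T3 - kap| + 4 * (lam * kap / (N - 2))
            + 2 * (lam * (cw * t) + 9 / 4 * lam * v * b ^ 2 + Tilt.rbs lam Δ s * t ^ 2)
            + (2 * e * (b ^ 2 + s * v) + 2 * (2 * lam * t) * (s * v)
              + 6 * ((t + s ^ 2) * (b ^ 2 + 2 * (s * v))))
            + 2 * (lam * kap / (N * (N - 2))) * (e ^ 2 + N * (2 * lam * t)))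
        + 3 * (27 * b ^ 4 + 24 * (s * v) ^ 2)
        + 3 * (N ^ 2 * (2 * (lam * kap / (N * (N - 2)))) ^ 2)) / σ ^ 754
      ≤ (10000 * K ^ 4) * (N / σ ^ 2) := by
  have hσ := h.σ0
  have hK := h.K1
  have hK0 : 0 ≤ K := by linarith
  have hL := h.L0
  have hX : 802 * Real.log σ ≤ Real.log N := by exact_mod_cast log_ge_of_pow_le hσ hN
  have k2 : 1 ≤ K ^ 2 := one_le_pow₀ hK
  have k3 : K ≤ K ^ 4 := le_self_pow₀ hK (by norm_num)
  have k4 : K ^ 2 ≤ K ^ 4 := pow_le_pow_right₀ hK (by norm_num)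
  have k5 : K ^ 3 ≤ K ^ 4 := pow_le_pow_right₀ hK (by norm_num)
  have k6 : 1 ≤ K ^ 4 := one_le_pow₀ hK
  have Bl : Bd (Real.log σ) (Real.log N) lam 1 186 0 := by
    rw [hl]; exact_mod_cast h.powσ 186
  have Bδ : Bd (Real.log σ) (Real.log N) (σ ^ 377) 1 377 0 := by exact_mod_cast h.powσ 377
  have Bk : Bd (Real.log σ) (Real.log N) kap K 1000 0 := by
    exact_mod_cast bd_of_le_powσ hσ hK0 hkap0 hkap _
  have BT1 : Bd (Real.log σ) (Real.log N) |T1| K 384 0 := by
    exact_mod_cast bd_of_le_powσ hσ hK0 (abs_nonneg _) hT1 _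
  have BD : Bd (Real.log σ) (Real.log N) |D| 1 683 0 := by
    exact_mod_cast bd_of_le_powσ hσ zero_le_one (abs_nonneg _) (by rw [one_mul]; exact hD) _
  have BT3 : Bd (Real.log σ) (Real.log N) |T3 - kap| 1 950 0 := by
    exact_mod_cast bd_of_le_powσ hσ zero_le_one (abs_nonneg _) (by rw [one_mul]; exact hT3) _
  have Bv : Bd (Real.log σ) (Real.log N) v 1 305 0 := by
    exact_mod_cast h.of_sq1 (m := 305) (c := 1) h.v0 zero_le_one (by norm_num; exact hv)
  have Bcw : Bd (Real.log σ) (Real.log N) cw 1 30 (1 / 2) := by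
    exact_mod_cast h.of_sqN (m := 30) (c := 1) hcw0 zero_le_one (by norm_num; exact hcw)
  have Br := bd_rbs h hΔ hΔ0 hl
  have Bt := h.Bt
  have Bs := h.Bs
  have Bb := h.Bb
  have Be := h.Be
  have BN := Bd.self h.N0 (Real.log σ)
  have BN2 := h.BN2
  have BiN := h.BiN
  -- the quotients
  have BQ : Bd (Real.log σ) (Real.log N) (lam * kap / (N - 2)) (2 * K) 1186 (-1) := by
    have := ((Bl.mul Bk).mul BN2).to (a' := 1186) (b' := -1) (c' := 2 * K)
      (by linarith) (by linarith)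
    rwa [mul_one_div] at this
  have BQ2 : Bd (Real.log σ) (Real.log N) (lam * kap / (N * (N - 2))) (2 * K) 1186 (-2) := by
    have := ((Bl.mul Bk).mul (BiN.mul BN2)).to (a' := 1186) (b' := -2) (c' := 2 * K)
      (by linarith) (by linarith)
    rwa [one_div_mul_one_div, mul_one_div] at this
  -- the first order terms, at `(375, 1)`
  have M1 := ((BT1.mul BD).smul (k := 2) (by norm_num)).to (a' := 375) (b' := 1)
    (c' := 2 * K ^ 4) (by linarith) (by linarith)
  have M2 := ((Bl.smul (k := 2) (by norm_num)).mul BT3).to (a' := 375) (b' := 1)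
    (c' := 2 * K ^ 4) (by linarith) (by linarith)
  have M3 := (BQ.smul (k := 4) (by norm_num)).to (a' := 375) (b' := 1)
    (c' := 8 * K ^ 4) (by linarith) (by linarith)
  have M4a := (Bl.mul (Bcw.mul Bt)).to (a' := 375) (b' := 1)
    (c' := 2 * K ^ 4) (by linarith) (by linarith)
  have M4b := (((Bl.smul (k := 9 / 4) (by norm_num)).mul Bv).mul (Bb.pow 2)).to
    (a' := 375) (b' := 1) (c' := 9 / 4 * K ^ 4) (by push_cast; linarith) (by linarith)
  have M4c := (Br.mul (Bt.pow 2)).to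
    (a' := 375) (b' := 1) (c' := 928 * K ^ 4) (by push_cast; linarith) (by linarith)
  have M4 := ((M4a.add M4b).add M4c).smul (k := 2) (by norm_num)
  have M5a := ((Be.smul (k := 2) (by norm_num)).mul (Bb.pow 2)).to
    (a' := 375) (b' := 1) (c' := 2 * K ^ 4) (by push_cast; linarith) (by linarith)
  have M5b := ((Be.smul (k := 2) (by norm_num)).mul (Bs.mul Bv)).to
    (a' := 375) (b' := 1) (c' := 2 * K ^ 4) (by linarith) (by linarith)
  have M6 := ((Bl.mul Bt).mul (Bs.mul Bv)).to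
    (a' := 375) (b' := 1) (c' := 2 * K ^ 4) (by linarith) (by linarith)
  have M7a := (Bt.mul (Bb.pow 2)).to
    (a' := 375) (b' := 1) (c' := 2 * K ^ 4) (by push_cast; linarith) (by linarith)
  have M7b := (Bt.mul (Bs.mul Bv)).to
    (a' := 375) (b' := 1) (c' := 2 * K ^ 4) (by linarith) (by linarith)
  have M7c := ((Bs.pow 2).mul (Bb.pow 2)).to
    (a' := 375) (b' := 1) (c' := 1 * K ^ 4) (by push_cast; linarith) (by linarith)
  have M7d := ((Bs.pow 2).mul (Bs.mul Bv)).to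
    (a' := 375) (b' := 1) (c' := 1 * K ^ 4) (by push_cast; linarith) (by linarith)
  have M8a := (BQ2.mul (Be.pow 2)).to
    (a' := 375) (b' := 1) (c' := 2 * K ^ 4) (by push_cast; linarith) (by nlinarith)
  have M8b := (BQ2.mul (BN.mul (Bl.mul Bt))).to
    (a' := 375) (b' := 1) (c' := 4 * K ^ 4) (by linarith) (by linarith)
  have M := ((((((((((((M1.add M2).add M3).add M4).add M5a).add M5b).add
    (M6.smul (k := 4) (by norm_num))).add (M7a.smul (k := 6) (by norm_num))).add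
    (M7b.smul (k := 12) (by norm_num))).add (M7c.smul (k := 6) (by norm_num))).add
    (M7d.smul (k := 12) (by norm_num))).add (M8a.smul (k := 2) (by norm_num))).add
    (M8b.smul (k := 4) (by norm_num)))
  have M' := ((Bδ.smul (k := 2) (by norm_num)).mul M).to
    (a' := 752) (b' := 1) (c' := 4500 * K ^ 4) (by linarith) (by linarith)
  -- the second order terms, at `(752, 1)`
  have Q1 := (Bb.pow 4).to
    (a' := 752) (b' := 1) (c' := 1 * K ^ 4) (by push_cast; linarith) (by linarith)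
  have Q2 := ((Bs.mul Bv).pow 2).to
    (a' := 752) (b' := 1) (c' := 1 * K ^ 4) (by push_cast; linarith) (by linarith)
  have Q3 := ((BN.pow 2).mul (BQ2.pow 2)).to
    (a' := 752) (b' := 1) (c' := 4 * K ^ 4) (by push_cast; linarith) (by nlinarith)
  have T := (((M'.add (Q1.smul (k := 81) (by norm_num))).add
    (Q2.smul (k := 72) (by norm_num))).add (Q3.smul (k := 12) (by norm_num))).to
    (a' := 752) (b' := 1) (c' := 10000 * K ^ 4) le_rfl (by linarith)
  have T' := T.to (a' := ((754 : ℕ) : ℝ) - 2) (b' := 1) (c' := 10000 * K ^ 4)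
    (by push_cast; linarith) le_rfl
  refine le_trans (le_of_eq ?_) (T'.final h)
  congr 1
  ring

/-- numerical form of `T1_rate_II` -/
theorem T1_num_II (h : Num σ N K b t s v w e) (hv : v ^ 2 ≤ σ ^ 690) {T1 D : ℝ}
    (hT1 : |T1| ≤ K * σ ^ 384) (hD : |D| ≤ K * σ ^ 685) :
    (2 * σ ^ 377 * (2 * (|T1| * |D|)
            + (2 * e * (b ^ 2 + s * v) + 6 * ((t + s ^ 2) * (b ^ 2 + 2 * (s * v)))))
        + 3 * (27 * b ^ 4 + 24 * (s * v) ^ 2)) / σ ^ 754
      ≤ (10000 * K ^ 4) * (N / σ ^ 2) := by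
  have hσ := h.σ0
  have hK := h.K1
  have hK0 : 0 ≤ K := by linarith
  have hL := h.L0
  have hX := h.X0
  have k2 : 1 ≤ K ^ 2 := one_le_pow₀ hK
  have k3 : K ≤ K ^ 4 := le_self_pow₀ hK (by norm_num)
  have k4 : K ^ 2 ≤ K ^ 4 := pow_le_pow_right₀ hK (by norm_num)
  have k5 : K ^ 3 ≤ K ^ 4 := pow_le_pow_right₀ hK (by norm_num)
  have k6 : 1 ≤ K ^ 4 := one_le_pow₀ hK
  have Bδ : Bd (Real.log σ) (Real.log N) (σ ^ 377) 1 377 0 := by exact_mod_cast h.powσ 377
  have BT1 : Bd (Real.log σ) (Real.log N) |T1| K 384 0 := by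
    exact_mod_cast bd_of_le_powσ hσ hK0 (abs_nonneg _) hT1 _
  have BD : Bd (Real.log σ) (Real.log N) |D| K 685 0 := by
    exact_mod_cast bd_of_le_powσ hσ hK0 (abs_nonneg _) hD _
  have Bv : Bd (Real.log σ) (Real.log N) v 1 345 0 := by
    exact_mod_cast h.of_sq1 (m := 345) (c := 1) h.v0 zero_le_one (by norm_num; exact hv)
  have Bt := h.Bt
  have Bs := h.Bs
  have Bb := h.Bb
  have Be := h.Be
  -- the first order terms, at `(375, 1)`
  have M1 := ((BT1.mul BD).smul (k := 2) (by norm_num)).to (a' := 375) (b' := 1)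
    (c' := 2 * K ^ 4) (by linarith) (by nlinarith)
  have M5a := ((Be.smul (k := 2) (by norm_num)).mul (Bb.pow 2)).to
    (a' := 375) (b' := 1) (c' := 2 * K ^ 4) (by push_cast; linarith) (by linarith)
  have M5b := ((Be.smul (k := 2) (by norm_num)).mul (Bs.mul Bv)).to
    (a' := 375) (b' := 1) (c' := 2 * K ^ 4) (by linarith) (by linarith)
  have M7a := (Bt.mul (Bb.pow 2)).to
    (a' := 375) (b' := 1) (c' := 2 * K ^ 4) (by push_cast; linarith) (by linarith)
  have M7b := (Bt.mul (Bs.mul Bv)).to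
    (a' := 375) (b' := 1) (c' := 2 * K ^ 4) (by linarith) (by linarith)
  have M7c := ((Bs.pow 2).mul (Bb.pow 2)).to
    (a' := 375) (b' := 1) (c' := 1 * K ^ 4) (by push_cast; linarith) (by linarith)
  have M7d := ((Bs.pow 2).mul (Bs.mul Bv)).to
    (a' := 375) (b' := 1) (c' := 1 * K ^ 4) (by push_cast; linarith) (by linarith)
  have M := ((((((M1.add M5a).add M5b).add (M7a.smul (k := 6) (by norm_num))).add
    (M7b.smul (k := 12) (by norm_num))).add (M7c.smul (k := 6) (by norm_num))).add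
    (M7d.smul (k := 12) (by norm_num)))
  have M' := ((Bδ.smul (k := 2) (by norm_num)).mul M).to
    (a' := 752) (b' := 1) (c' := 4500 * K ^ 4) (by linarith) (by linarith)
  -- the second order terms, at `(752, 1)`
  have Q1 := (Bb.pow 4).to
    (a' := 752) (b' := 1) (c' := 1 * K ^ 4) (by push_cast; linarith) (by linarith)
  have Q2 := ((Bs.mul Bv).pow 2).to
    (a' := 752) (b' := 1) (c' := 1 * K ^ 4) (by push_cast; linarith) (by linarith)
  have T := ((M'.add (Q1.smul (k := 81) (by norm_num))).add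
    (Q2.smul (k := 72) (by norm_num))).to
    (a' := ((754 : ℕ) : ℝ) - 2) (b' := 1) (c' := 10000 * K ^ 4) (by push_cast; linarith)
    (by linarith)
  refine le_trans (le_of_eq ?_) (T.final h)
  congr 1
  ring

/-- numerical form of `D_rate_I` -/
theorem D_num_I (h : Num σ N K b t s v w e) (hN : σ ^ 802 ≤ N) (hv : v ^ 2 ≤ σ ^ 610)
    (hcw : cw ^ 2 ≤ σ ^ 60 * N) (hcw0 : 0 ≤ cw) (hl : lam = σ ^ 186) (hΔ : Δ ≤ K)
    (hΔ0 : 0 ≤ Δ) {T1 T3 D : ℝ}
    (hT1 : |T1| ≤ K * σ ^ 384) (hD : |D| ≤ σ ^ 683) (hT3 : |T3| ≤ K * σ ^ 1000) :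
    (2 * σ ^ 683 * (4 * (|T1| * |T3|) + 4 * |T1| ^ 2
            + 2 * |D| ^ 2
            + 4 * (lam * (b ^ 4 + cw * b ^ 2) + 9 / 4 * lam * v * b ^ 3
              + Tilt.rbs lam Δ s * t * b ^ 2 + 2 * lam * t ^ 2)
            + (4 * e * (b ^ 3 + s * (2 * b * w + 2 * s) + v ^ 2)
              + 4 * (2 * lam * t) * (s * (2 * b * w + 2 * s) + v ^ 2)
              + 18 * ((t + s ^ 2) * (b ^ 3 + 2 * (s * (2 * b * w + 2 * s)) + v ^ 2))
              + 30 * (b ^ 4 + 2 * (s * v) ^ 2)))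
        + 3 * (343 * b ^ 6 + 350 * (s * (2 * b * w + 2 * s)) ^ 2 + 175 * v ^ 4 + 2800 * w ^ 4
          + 5600 * (s ^ 4 * v ^ 4))) / σ ^ 1366
      ≤ (1000000 * K ^ 4) * (N / σ ^ 2) := by
  have hσ := h.σ0
  have hK := h.K1
  have hK0 : 0 ≤ K := by linarith
  have hL := h.L0
  have hX : 802 * Real.log σ ≤ Real.log N := by exact_mod_cast log_ge_of_pow_le hσ hN
  have k2 : 1 ≤ K ^ 2 := one_le_pow₀ hK
  have k3 : K ≤ K ^ 4 := le_self_pow₀ hK (by norm_num)
  have k4 : K ^ 2 ≤ K ^ 4 := pow_le_pow_right₀ hK (by norm_num)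
  have k5 : K ^ 3 ≤ K ^ 4 := pow_le_pow_right₀ hK (by norm_num)
  have k6 : 1 ≤ K ^ 4 := one_le_pow₀ hK
  have Bl : Bd (Real.log σ) (Real.log N) lam 1 186 0 := by
    rw [hl]; exact_mod_cast h.powσ 186
  have Bδ : Bd (Real.log σ) (Real.log N) (σ ^ 683) 1 683 0 := by exact_mod_cast h.powσ 683
  have BT1 : Bd (Real.log σ) (Real.log N) |T1| K 384 0 := by
    exact_mod_cast bd_of_le_powσ hσ hK0 (abs_nonneg _) hT1 _
  have BD : Bd (Real.log σ) (Real.log N) |D| 1 683 0 := by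
    exact_mod_cast bd_of_le_powσ hσ zero_le_one (abs_nonneg _) (by rw [one_mul]; exact hD) _
  have BT3 : Bd (Real.log σ) (Real.log N) |T3| K 1000 0 := by
    exact_mod_cast bd_of_le_powσ hσ hK0 (abs_nonneg _) hT3 _
  have Bv : Bd (Real.log σ) (Real.log N) v 1 305 0 := by
    exact_mod_cast h.of_sq1 (m := 305) (c := 1) h.v0 zero_le_one (by norm_num; exact hv)
  have Bcw : Bd (Real.log σ) (Real.log N) cw 1 30 (1 / 2) := by
    exact_mod_cast h.of_sqN (m := 30) (c := 1) hcw0 zero_le_one (by norm_num; exact hcw)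
  have Br := bd_rbs h hΔ hΔ0 hl
  have Bt := h.Bt
  have Bs := h.Bs
  have Bb := h.Bb
  have Be := h.Be
  have Bw := h.Bw
  have Bw2 : Bd (Real.log σ) (Real.log N) (w ^ 2) (4 * K) 1000 0 := by
    have := h.hw
    have := h.NU
    exact_mod_cast bd_of_le_powσ hσ (by linarith) (sq_nonneg w) (by linarith) _
  -- `a₁ = 2bw + 2s ≤ 6 σ^(2003/4) N^(1/4)`
  have Ba : Bd (Real.log σ) (Real.log N) (2 * b * w + 2 * s) 6 (2003 / 4) (1 / 4) := by
    have a1 := ((Bb.smul (k := 2) (by norm_num)).mul Bw).to (a' := 2003 / 4) (b' := 1 / 4)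
      (c' := 4) (by linarith) (by norm_num)
    have a2 := (Bs.smul (k := 2) (by norm_num)).to (a' := 2003 / 4) (b' := 1 / 4)
      (c' := 2) (by linarith) (by norm_num)
    exact (a1.add a2).to le_rfl (by norm_num)
  set a1 := 2 * b * w + 2 * s with ha1
  -- the first order terms, at `(681, 1)`
  have M1 := (BT1.mul BT3).to (a' := 681) (b' := 1)
    (c' := 1 * K ^ 4) (by linarith) (by linarith)
  have M2 := (BT1.pow 2).to (a' := 681) (b' := 1)
    (c' := 1 * K ^ 4) (by push_cast; linarith) (by linarith)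
  have M3 := (BD.pow 2).to (a' := 681) (b' := 1)
    (c' := 1 * K ^ 4) (by push_cast; linarith) (by linarith)
  have M4a := (Bl.mul (Bb.pow 4)).to (a' := 681) (b' := 1)
    (c' := 1 * K ^ 4) (by push_cast; linarith) (by linarith)
  have M4b := (Bl.mul (Bcw.mul (Bb.pow 2))).to (a' := 681) (b' := 1)
    (c' := 1 * K ^ 4) (by push_cast; linarith) (by linarith)
  have M4c := ((Bl.mul Bv).mul (Bb.pow 3)).to (a' := 681) (b' := 1)
    (c' := 1 * K ^ 4) (by push_cast; linarith) (by linarith)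
  have M4d := ((Br.mul Bt).mul (Bb.pow 2)).to (a' := 681) (b' := 1)
    (c' := 464 * K ^ 4) (by push_cast; linarith) (by linarith)
  have M4e := (Bl.mul (Bt.pow 2)).to (a' := 681) (b' := 1)
    (c' := 4 * K ^ 4) (by push_cast; linarith) (by linarith)
  have M5a := (Be.mul (Bb.pow 3)).to (a' := 681) (b' := 1)
    (c' := 1 * K ^ 4) (by push_cast; linarith) (by linarith)
  have M5b := (Be.mul (Bs.mul Ba)).to (a' := 681) (b' := 1)
    (c' := 6 * K ^ 4) (by linarith) (by linarith)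
  have M5c := (Be.mul (Bv.pow 2)).to (a' := 681) (b' := 1)
    (c' := 1 * K ^ 4) (by push_cast; linarith) (by linarith)
  have M6a := ((Bl.mul Bt).mul (Bs.mul Ba)).to (a' := 681) (b' := 1)
    (c' := 12 * K ^ 4) (by linarith) (by linarith)
  have M6b := ((Bl.mul Bt).mul (Bv.pow 2)).to (a' := 681) (b' := 1)
    (c' := 2 * K ^ 4) (by push_cast; linarith) (by linarith)
  have M7a := (Bt.mul (Bb.pow 3)).to (a' := 681) (b' := 1)
    (c' := 2 * K ^ 4) (by push_cast; linarith) (by linarith)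
  have M7b := (Bt.mul (Bs.mul Ba)).to (a' := 681) (b' := 1)
    (c' := 12 * K ^ 4) (by linarith) (by linarith)
  have M7c := (Bt.mul (Bv.pow 2)).to (a' := 681) (b' := 1)
    (c' := 2 * K ^ 4) (by push_cast; linarith) (by linarith)
  have M8a := ((Bs.pow 2).mul (Bb.pow 3)).to (a' := 681) (b' := 1)
    (c' := 1 * K ^ 4) (by push_cast; linarith) (by linarith)
  have M8b := ((Bs.pow 2).mul (Bs.mul Ba)).to (a' := 681) (b' := 1)
    (c' := 6 * K ^ 4) (by push_cast; linarith) (by linarith)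
  have M8c := ((Bs.pow 2).mul (Bv.pow 2)).to (a' := 681) (b' := 1)
    (c' := 1 * K ^ 4) (by push_cast; linarith) (by linarith)
  have M9a := (Bb.pow 4).to (a' := 681) (b' := 1)
    (c' := 1 * K ^ 4) (by push_cast; linarith) (by linarith)
  have M9b := ((Bs.mul Bv).pow 2).to (a' := 681) (b' := 1)
    (c' := 1 * K ^ 4) (by push_cast; linarith) (by linarith)
  have Ma := ((((((((M1.smul (k := 4) (by norm_num)).add (M2.smul (k := 4) (by norm_num))).add
    (M3.smul (k := 2) (by norm_num))).add (M4a.smul (k := 4) (by norm_num))).add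
    (M4b.smul (k := 4) (by norm_num))).add (M4c.smul (k := 9) (by norm_num))).add
    (M4d.smul (k := 4) (by norm_num))).add (M4e.smul (k := 8) (by norm_num)))
  have Mb := ((((M5a.smul (k := 4) (by norm_num)).add (M5b.smul (k := 4) (by norm_num))).add
    (M5c.smul (k := 4) (by norm_num))).add (M6a.smul (k := 8) (by norm_num))).add
    (M6b.smul (k := 8) (by norm_num))
  have Mc := (((((((M7a.smul (k := 18) (by norm_num)).add (M7b.smul (k := 36) (by norm_num))).add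
    (M7c.smul (k := 18) (by norm_num))).add (M8a.smul (k := 18) (by norm_num))).add
    (M8b.smul (k := 36) (by norm_num))).add (M8c.smul (k := 18) (by norm_num))).add
    (M9a.smul (k := 30) (by norm_num))).add (M9b.smul (k := 60) (by norm_num))
  have M' := ((Bδ.smul (k := 2) (by norm_num)).mul ((Ma.add Mb).add Mc)).to
    (a' := 1364) (b' := 1) (c' := 10000 * K ^ 4) (by linarith) (by linarith)
  -- the second order terms, at `(1364, 1)`
  have Q1 := (Bb.pow 6).to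
    (a' := 1364) (b' := 1) (c' := 1 * K ^ 4) (by push_cast; linarith) (by linarith)
  have Q2 := ((Bs.mul Ba).pow 2).to
    (a' := 1364) (b' := 1) (c' := 36 * K ^ 4) (by push_cast; linarith) (by linarith)
  have Q3 := (Bv.pow 4).to
    (a' := 1364) (b' := 1) (c' := 1 * K ^ 4) (by push_cast; linarith) (by linarith)
  have Q4 := (Bw2.mul (Bw.pow 2)).to
    (a' := 1364) (b' := 1) (c' := 16 * K ^ 4) (by push_cast; linarith) (by linarith)
  have Q5 := ((Bs.pow 4).mul (Bv.pow 4)).to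
    (a' := 1364) (b' := 1) (c' := 1 * K ^ 4) (by push_cast; linarith) (by linarith)
  have T := (((((M'.add (Q1.smul (k := 1029) (by norm_num))).add
    (Q2.smul (k := 1050) (by norm_num))).add (Q3.smul (k := 525) (by norm_num))).add
    (Q4.smul (k := 8400) (by norm_num))).add (Q5.smul (k := 16800) (by norm_num))).to
    (a' := ((1366 : ℕ) : ℝ) - 2) (b' := 1) (c' := 1000000 * K ^ 4) (by push_cast; linarith)
    (by linarith)
  refine le_trans (le_of_eq ?_) (T.final h)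
  congr 1
  ring

/-- numerical form of `D_rate_II` -/
theorem D_num_II (h : Num σ N K b t s v w e) (hv : v ^ 2 ≤ σ ^ 690)
    (hkap : kap ≤ K * σ ^ 1000) (hkap0 : 0 ≤ kap) {K1 x1 x3 T1 D : ℝ}
    (hK1 : K1 ≤ K * σ ^ 384) (hK10 : 0 ≤ K1) (hx1 : |x1| ≤ σ ^ 377) (hx3 : |x3| ≤ σ ^ 993)
    (hT1 : |T1| ≤ K * σ ^ 384) (hD : |D| ≤ K * σ ^ 685) :
    (2 * σ ^ 683 * (4 * (|x1| * kap) + 4 * (K1 * |x3|) + 4 * (|x1| * |x3|)
            + 8 * (K1 * kap / (N - 2)) + 4 * |T1| ^ 2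
            + 2 * |D| ^ 2
            + (4 * e * (b ^ 3 + s * (2 * b * w + 2 * s) + v ^ 2)
              + 18 * ((t + s ^ 2) * (b ^ 3 + 2 * (s * (2 * b * w + 2 * s)) + v ^ 2))
              + 30 * (b ^ 4 + 2 * (s * v) ^ 2))
            + 4 * (K1 * kap / (N * (N - 2))) * e ^ 2)
        + 3 * (343 * b ^ 6 + 350 * (s * (2 * b * w + 2 * s)) ^ 2 + 175 * v ^ 4 + 2800 * w ^ 4
          + 5600 * (s ^ 4 * v ^ 4))
        + 3 * (N ^ 2 * (4 * (K1 * kap / (N * (N - 2)))) ^ 2)) / σ ^ 1366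
      ≤ (1000000 * K ^ 4) * (N / σ ^ 2) := by
  have hσ := h.σ0
  have hK := h.K1
  have hK0 : 0 ≤ K := by linarith
  have hL := h.L0
  have hX := h.X0
  have k2 : 1 ≤ K ^ 2 := one_le_pow₀ hK
  have k3 : K ≤ K ^ 4 := le_self_pow₀ hK (by norm_num)
  have k4 : K ^ 2 ≤ K ^ 4 := pow_le_pow_right₀ hK (by norm_num)
  have k5 : K ^ 3 ≤ K ^ 4 := pow_le_pow_right₀ hK (by norm_num)
  have k6 : 1 ≤ K ^ 4 := one_le_pow₀ hK
  have Bδ : Bd (Real.log σ) (Real.log N) (σ ^ 683) 1 683 0 := by exact_mod_cast h.powσ 683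
  have Bk : Bd (Real.log σ) (Real.log N) kap K 1000 0 := by
    exact_mod_cast bd_of_le_powσ hσ hK0 hkap0 hkap _
  have BK1 : Bd (Real.log σ) (Real.log N) K1 K 384 0 := by
    exact_mod_cast bd_of_le_powσ hσ hK0 hK10 hK1 _
  have BT1 : Bd (Real.log σ) (Real.log N) |T1| K 384 0 := by
    exact_mod_cast bd_of_le_powσ hσ hK0 (abs_nonneg _) hT1 _
  have Bx1 : Bd (Real.log σ) (Real.log N) |x1| 1 377 0 := by
    exact_mod_cast bd_of_le_powσ hσ zero_le_one (abs_nonneg _) (by rw [one_mul]; exact hx1) _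
  have Bx3 : Bd (Real.log σ) (Real.log N) |x3| 1 993 0 := by
    exact_mod_cast bd_of_le_powσ hσ zero_le_one (abs_nonneg _) (by rw [one_mul]; exact hx3) _
  have BD : Bd (Real.log σ) (Real.log N) |D| K 685 0 := by
    exact_mod_cast bd_of_le_powσ hσ hK0 (abs_nonneg _) hD _
  have Bv : Bd (Real.log σ) (Real.log N) v 1 345 0 := by
    exact_mod_cast h.of_sq1 (m := 345) (c := 1) h.v0 zero_le_one (by norm_num; exact hv)
  have Bt := h.Bt
  have Bs := h.Bs
  have Bb := h.Bb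
  have Be := h.Be
  have Bw := h.Bw
  have BN := Bd.self h.N0 (Real.log σ)
  have BN2 := h.BN2
  have BiN := h.BiN
  have Bw2 : Bd (Real.log σ) (Real.log N) (w ^ 2) (4 * K) 1000 0 := by
    have := h.hw
    have := h.NU
    exact_mod_cast bd_of_le_powσ hσ (by linarith) (sq_nonneg w) (by linarith) _
  have BQ : Bd (Real.log σ) (Real.log N) (K1 * kap / (N - 2)) (2 * K ^ 2) 1384 (-1) := by
    have := ((BK1.mul Bk).mul BN2).to (a' := 1384) (b' := -1) (c' := 2 * K ^ 2)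
      (by linarith) (by nlinarith)
    rwa [mul_one_div] at this
  have BQ2 : Bd (Real.log σ) (Real.log N) (K1 * kap / (N * (N - 2))) (2 * K ^ 2)
      1384 (-2) := by
    have := ((BK1.mul Bk).mul (BiN.mul BN2)).to (a' := 1384) (b' := -2) (c' := 2 * K ^ 2)
      (by linarith) (by nlinarith)
    rwa [one_div_mul_one_div, mul_one_div] at this
  -- `a₁ = 2bw + 2s ≤ 6 σ^(2003/4) N^(1/4)`
  have Ba : Bd (Real.log σ) (Real.log N) (2 * b * w + 2 * s) 6 (2003 / 4) (1 / 4) := by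
    have a1 := ((Bb.smul (k := 2) (by norm_num)).mul Bw).to (a' := 2003 / 4) (b' := 1 / 4)
      (c' := 4) (by linarith) (by norm_num)
    have a2 := (Bs.smul (k := 2) (by norm_num)).to (a' := 2003 / 4) (b' := 1 / 4)
      (c' := 2) (by linarith) (by norm_num)
    exact (a1.add a2).to le_rfl (by norm_num)
  set a1 := 2 * b * w + 2 * s with ha1
  -- the first order terms, at `(681, 1)`
  have M1 := (Bx1.mul Bk).to (a' := 681) (b' := 1)
    (c' := 1 * K ^ 4) (by linarith) (by linarith)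
  have M2 := (BK1.mul Bx3).to (a' := 681) (b' := 1)
    (c' := 1 * K ^ 4) (by linarith) (by linarith)
  have M3 := (Bx1.mul Bx3).to (a' := 681) (b' := 1)
    (c' := 1 * K ^ 4) (by linarith) (by linarith)
  have M4a := BQ.to (a' := 681) (b' := 1)
    (c' := 2 * K ^ 4) (by linarith) (by linarith)
  have M4b := (BT1.pow 2).to (a' := 681) (b' := 1)
    (c' := 1 * K ^ 4) (by push_cast; linarith) (by linarith)
  have M4c := (BD.pow 2).to (a' := 681) (b' := 1)
    (c' := 1 * K ^ 4) (by push_cast; linarith) (by linarith)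
  have M4d := (BQ2.mul (Be.pow 2)).to (a' := 681) (b' := 1)
    (c' := 2 * K ^ 4) (by push_cast; linarith) (by nlinarith)
  have M5a := (Be.mul (Bb.pow 3)).to (a' := 681) (b' := 1)
    (c' := 1 * K ^ 4) (by push_cast; linarith) (by linarith)
  have M5b := (Be.mul (Bs.mul Ba)).to (a' := 681) (b' := 1)
    (c' := 6 * K ^ 4) (by linarith) (by linarith)
  have M5c := (Be.mul (Bv.pow 2)).to (a' := 681) (b' := 1)
    (c' := 1 * K ^ 4) (by push_cast; linarith) (by linarith)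
  have M7a := (Bt.mul (Bb.pow 3)).to (a' := 681) (b' := 1)
    (c' := 2 * K ^ 4) (by push_cast; linarith) (by linarith)
  have M7b := (Bt.mul (Bs.mul Ba)).to (a' := 681) (b' := 1)
    (c' := 12 * K ^ 4) (by linarith) (by linarith)
  have M7c := (Bt.mul (Bv.pow 2)).to (a' := 681) (b' := 1)
    (c' := 2 * K ^ 4) (by push_cast; linarith) (by linarith)
  have M8a := ((Bs.pow 2).mul (Bb.pow 3)).to (a' := 681) (b' := 1)
    (c' := 1 * K ^ 4) (by push_cast; linarith) (by linarith)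
  have M8b := ((Bs.pow 2).mul (Bs.mul Ba)).to (a' := 681) (b' := 1)
    (c' := 6 * K ^ 4) (by push_cast; linarith) (by linarith)
  have M8c := ((Bs.pow 2).mul (Bv.pow 2)).to (a' := 681) (b' := 1)
    (c' := 1 * K ^ 4) (by push_cast; linarith) (by linarith)
  have M9a := (Bb.pow 4).to (a' := 681) (b' := 1)
    (c' := 1 * K ^ 4) (by push_cast; linarith) (by linarith)
  have M9b := ((Bs.mul Bv).pow 2).to (a' := 681) (b' := 1)
    (c' := 1 * K ^ 4) (by push_cast; linarith) (by linarith)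
  have Ma := ((((((((M1.smul (k := 4) (by norm_num)).add (M2.smul (k := 4) (by norm_num))).add
    (M3.smul (k := 4) (by norm_num))).add (M4a.smul (k := 8) (by norm_num))).add
    (M4b.smul (k := 4) (by norm_num))).add (M4c.smul (k := 2) (by norm_num))).add
    (M4d.smul (k := 4) (by norm_num))))
  have Mb := (((M5a.smul (k := 4) (by norm_num)).add (M5b.smul (k := 4) (by norm_num))).add
    (M5c.smul (k := 4) (by norm_num)))
  have Mc := (((((((M7a.smul (k := 18) (by norm_num)).add (M7b.smul (k := 36) (by norm_num))).add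
    (M7c.smul (k := 18) (by norm_num))).add (M8a.smul (k := 18) (by norm_num))).add
    (M8b.smul (k := 36) (by norm_num))).add (M8c.smul (k := 18) (by norm_num))).add
    (M9a.smul (k := 30) (by norm_num))).add (M9b.smul (k := 60) (by norm_num))
  have M' := ((Bδ.smul (k := 2) (by norm_num)).mul ((Ma.add Mb).add Mc)).to
    (a' := 1364) (b' := 1) (c' := 10000 * K ^ 4) (by linarith) (by linarith)
  -- the second order terms, at `(1364, 1)`
  have Q1 := (Bb.pow 6).to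
    (a' := 1364) (b' := 1) (c' := 1 * K ^ 4) (by push_cast; linarith) (by linarith)
  have Q2 := ((Bs.mul Ba).pow 2).to
    (a' := 1364) (b' := 1) (c' := 36 * K ^ 4) (by push_cast; linarith) (by linarith)
  have Q3 := (Bv.pow 4).to
    (a' := 1364) (b' := 1) (c' := 1 * K ^ 4) (by push_cast; linarith) (by linarith)
  have Q4 := (Bw2.mul (Bw.pow 2)).to
    (a' := 1364) (b' := 1) (c' := 16 * K ^ 4) (by push_cast; linarith) (by linarith)
  have Q5 := ((Bs.pow 4).mul (Bv.pow 4)).to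
    (a' := 1364) (b' := 1) (c' := 1 * K ^ 4) (by push_cast; linarith) (by linarith)
  have Q6 := ((BN.pow 2).mul (BQ2.pow 2)).to
    (a' := 1364) (b' := 1) (c' := 4 * K ^ 4) (by push_cast; linarith) (by nlinarith)
  have T := ((((((M'.add (Q1.smul (k := 1029) (by norm_num))).add
    (Q2.smul (k := 1050) (by norm_num))).add (Q3.smul (k := 525) (by norm_num))).add
    (Q4.smul (k := 8400) (by norm_num))).add (Q5.smul (k := 16800) (by norm_num))).add
    (Q6.smul (k := 48) (by norm_num))).to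
    (a' := ((1366 : ℕ) : ℝ) - 2) (b' := 1) (c' := 1000000 * K ^ 4) (by push_cast; linarith)
    (by linarith)
  refine le_trans (le_of_eq ?_) (T.final h)
  congr 1
  ring

end Vale.Agent.P049.TS.Rate
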