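import Vale.Agent.P049.TS.Rate.WtA
import Vale.Agent.P049.TS.Q4.Q4
import Vale.Agent.P049.TS.Rate.T1

/-!
The rate of `V = Σ (w_a - 1)²`, exponent-free forms (tilted and untilted).
-/

set_option linter.unusedSectionVars false

namespace Vale.Agent.P049.TS.RV

open Matrix Finset A480 WtA

variable {ι : Type*} [Fintype ι] [DecidableEq ι]
variable {F : Finset ι} {forb : ι → ι → Prop} {Z Z' Zp Zm : Matrix ι ι ℝ}
  {b t s v w r z n G y Δ lam cw r' : ℝ}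

open Classical in
/-- the indicator matrix of the excluded pairs -/
noncomputable def exM (F : Finset ι) (forb : ι → ι → Prop) (Zp Zm : Matrix ι ι ℝ) :
    Matrix ι ι ℝ := fun a c => if (a ∈ F ∧ c ∈ F) ∧ (a, c) ∉ adm F forb Zp Zm then 1 else 0

theorem exM_symm (hp : Zp.IsSymm) (hm : Zm.IsSymm) (hf : ∀ a b, forb a b → forb b a) :
    (exM F forb Zp Zm).IsSymm := by
  ext a c
  rw [Matrix.transpose_apply]
  unfold exM
  have e : ((c, a) ∈ adm F forb Zp Zm) = ((a, c) ∈ adm F forb Zp Zm) :=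
    propext ⟨Tilt.adm_symm hp hm hf, Tilt.adm_symm hp hm hf⟩
  have e2 : (c ∈ F ∧ a ∈ F) = (a ∈ F ∧ c ∈ F) := propext and_comm
  simp only [e, e2]

theorem exM_op (hp : RowB F Zp s v) (hm : RowB F Zm s v) (hf : ∀ a b, forb a b → forb b a)
    (hΔ : 0 ≤ Δ)
    (hc : ∀ [∀ x y, Decidable (forb x y)],
      ∀ a ∈ F, ((F.filter fun b => forb a b).card : ℝ) ≤ Δ) :
    Mat.OpB (exM F forb Zp Zm) (1 + Δ + 128 * (1 + v) + 128 * s ^ 4) := by
  classical
  refine Tilt.opB_of_rowSum (exM_symm hp.symm hm.symm hf) fun a => ?_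
  by_cases ha : a ∈ F
  · have h1 : ∑ c, |exM F forb Zp Zm a c|
        = ((F.filter fun c => (a, c) ∉ adm F forb Zp Zm).card : ℝ) := by
      have h2 : ∀ c, |exM F forb Zp Zm a c|
          = if c ∈ F.filter fun c => (a, c) ∉ adm F forb Zp Zm then (1 : ℝ) else 0 := by
        intro c
        unfold exM
        simp only [ha, true_and, Finset.mem_filter]
        split_ifs <;> simp
      simp only [h2]
      rw [Finset.sum_ite_mem, Finset.univ_inter, Finset.sum_const, nsmul_eq_mul, mul_one]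
    rw [h1]
    convert deg_le (F := F) (forb := forb) hp hm hc ha
  · have h1 : ∀ c, |exM F forb Zp Zm a c| = 0 := by
      intro c
      unfold exM
      rw [if_neg (fun h => ha h.1.1), abs_zero]
    simp only [h1, Finset.sum_const_zero]
    have := hp.v0
    positivity

/-- the first-order array against a symmetric matrix supported on `F × F` -/
theorem sum_rt (hZ : Z.IsSymm) (τ : ℝ) {M : Matrix ι ι ℝ} (hM : M.IsSymm)
    (h0 : ∀ a c, a ∉ F → M a c = 0) :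
    ∑ a ∈ F, ∑ c ∈ F, M a c * rt τ F Z a c
      = ∑ i ∈ F, ((Z ^ 2) i i - τ) * (Z * M * Z ^ 2) i i := by
  have h0' : ∀ a c, c ∉ F → M a c = 0 := fun a c hc => by
    rw [← hM.apply a c]; exact h0 c a hc
  have e1 : ∀ i, (Z * M * Z ^ 2) i i = ∑ a ∈ F, ∑ c ∈ F, M a c * ((Z ^ 2) a i * Z c i) := by
    intro i
    rw [Matrix.mul_apply]
    have e2 : ∑ a ∈ F, ∑ c ∈ F, M a c * ((Z ^ 2) a i * Z c i)
        = ∑ a, ∑ c, M a c * ((Z ^ 2) a i * Z c i) := by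
      rw [← Finset.sum_subset (Finset.subset_univ F)]
      · refine Finset.sum_congr rfl fun a _ => ?_
        exact Finset.sum_subset (Finset.subset_univ F) fun c _ hc => by rw [h0' a c hc, zero_mul]
      · intro a _ ha
        exact Finset.sum_eq_zero fun c _ => by rw [h0 a c ha, zero_mul]
    rw [e2]
    refine Finset.sum_congr rfl fun a _ => ?_
    rw [Matrix.mul_apply, Finset.sum_mul]
    refine Finset.sum_congr rfl fun c _ => ?_
    rw [hM.apply a c, hZ.apply c i]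
    ring
  simp only [e1]
  unfold rt rho
  simp only [Finset.mul_sum]
  symm
  rw [Finset.sum_comm]
  refine Finset.sum_congr rfl fun a _ => ?_
  rw [Finset.sum_comm]
  refine Finset.sum_congr rfl fun c _ => Finset.sum_congr rfl fun i _ => ?_
  ring

/-- the excluded pairs in the first-order term -/
theorem ex_term (h : Pr F Z b t s v w r z n) (τ : ℝ) {f : ℝ} (hf0 : 0 ≤ f)
    (hf : ∑ i ∈ F, ((Z ^ 2) i i - τ) ^ 2 ≤ f ^ 2) (hp : RowB F Zp s v) (hm : RowB F Zm s v)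
    (hfs : ∀ a b, forb a b → forb b a) (hΔ : 0 ≤ Δ)
    (hc : ∀ [∀ x y, Decidable (forb x y)],
      ∀ a ∈ F, ((F.filter fun b => forb a b).card : ℝ) ≤ Δ) :
    |∑ a ∈ F, ∑ c ∈ F, exM F forb Zp Zm a c * rt τ F Z a c|
      ≤ (1 + Δ + 128 * (1 + v) + 128 * s ^ 4) * b * (f * w) := by
  have hop := exM_op (F := F) (forb := forb) hp hm hfs hΔ hc
  have hv := hp.v0
  have hb := h.c.b0
  have hG0 : 0 ≤ 1 + Δ + 128 * (1 + v) + 128 * s ^ 4 := by positivity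
  rw [sum_rt h.c.symm τ (exM_symm hp.symm hm.symm hfs)
    (fun a c ha => by unfold exM; rw [if_neg (fun h => ha h.1.1)])]
  refine (Finset.abs_sum_le_sum_abs _ _).trans ?_
  have h1 : ∀ i ∈ F, |((Z ^ 2) i i - τ) * (Z * exM F forb Zp Zm * Z ^ 2) i i|
      ≤ (1 + Δ + 128 * (1 + v) + 128 * s ^ 4) * b * (|(Z ^ 2) i i - τ| * (Z ^ 2) i i) := by
    intro i _
    rw [abs_mul]
    have := Tilt.OpB.abs_diag_two h.c.symm hb h.c.opB hG0 hop i
    calc |(Z ^ 2) i i - τ| * |(Z * exM F forb Zp Zm * Z ^ 2) i i|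
        ≤ |(Z ^ 2) i i - τ| * ((1 + Δ + 128 * (1 + v) + 128 * s ^ 4) * b * (Z ^ 2) i i) :=
          mul_le_mul_of_nonneg_left this (abs_nonneg _)
      _ = _ := by ring
  refine (Finset.sum_le_sum h1).trans ?_
  rw [← Finset.mul_sum]
  exact mul_le_mul_of_nonneg_left (h.sum_phi_w hf0 hf) (by positivity)

open Classical in
/-- the first-order term with the weights `1 - hT` -/
theorem fo_tilt (h : Pr F Z b t s v w r z n) (τ : ℝ) (hp : Zp.IsSymm) (hm : Zm.IsSymm)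
    (hfs : ∀ a b, forb a b → forb b a) :
    ∑ a ∈ F, ∑ c ∈ F, (1 - omf F forb Zp Zm (Tilt.hT F forb Zp Zm lam) a c) * rt τ F Z a c
      = ∑ a ∈ F, ∑ c ∈ F, exM F forb Zp Zm a c * rt τ F Z a c
        + ∑ i ∈ F, ((Z ^ 2) i i - τ) * (Z * Tilt.hT F forb Zp Zm lam * Z ^ 2) i i := by
  rw [← sum_rt h.c.symm τ (Tilt.hT_isSymm hp hm hfs)
    (fun a c ha => Tilt.hT_apply_eq_zero fun hh =>
      ha (Finset.mem_product.1 (adm_subset F forb Zp Zm hh)).1)]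
  rw [← Finset.sum_add_distrib]
  refine Finset.sum_congr rfl fun a ha => ?_
  rw [← Finset.sum_add_distrib]
  refine Finset.sum_congr rfl fun c hc => ?_
  rw [← add_mul]
  congr 1
  unfold omf exM
  by_cases hh : (a, c) ∈ adm F forb Zp Zm
  · rw [if_pos hh, if_neg (fun h => h.2 hh)]; ring
  · rw [if_neg hh, if_pos ⟨⟨ha, hc⟩, hh⟩, Tilt.hT_apply_eq_zero hh]; ring

open Classical in
/-- the first-order term with uniform weights -/
theorem fo_unif (τ : ℝ) :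
    ∑ a ∈ F, ∑ c ∈ F, (1 - omf F forb Zp Zm (fun _ _ => 0) a c) * rt τ F Z a c
      = ∑ a ∈ F, ∑ c ∈ F, exM F forb Zp Zm a c * rt τ F Z a c := by
  refine Finset.sum_congr rfl fun a ha => Finset.sum_congr rfl fun c hc => ?_
  congr 1
  unfold omf exM
  by_cases hh : (a, c) ∈ adm F forb Zp Zm
  · rw [if_pos hh, if_neg (fun h => h.2 hh)]; ring
  · rw [if_neg hh, if_pos ⟨⟨ha, hc⟩, hh⟩]; ring

/-- crude bound of the `T₁`-term -/
theorem T1_term_crude (h : Pr F Z b t s v w r z n) {τ1 : ℝ} (hτ : |Z.trace| ≤ τ1) :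
    8 * (Z.trace * ∑ i ∈ F, ((Z ^ 2) i i - 1) * (Z ^ 3) i i) ≤ 8 * (τ1 * (b * (v * w))) := by
  have hb := h.c.b0
  have h1 : |∑ i ∈ F, ((Z ^ 2) i i - 1) * (Z ^ 3) i i| ≤ b * (v * w) := by
    refine (Finset.abs_sum_le_sum_abs _ _).trans ?_
    have h2 : ∀ i ∈ F, |((Z ^ 2) i i - 1) * (Z ^ 3) i i|
        ≤ b * (|(Z ^ 2) i i - 1| * (Z ^ 2) i i) := by
      intro i _
      rw [abs_mul]
      have e : Z ^ 3 = Z * Z * Z := by rw [pow_succ, sq]
      have := Tilt.OpB.abs_diag_one h.c.symm hb h.c.opB i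
      rw [← e] at this
      calc |(Z ^ 2) i i - 1| * |(Z ^ 3) i i| ≤ |(Z ^ 2) i i - 1| * (b * (Z ^ 2) i i) :=
            mul_le_mul_of_nonneg_left this (abs_nonneg _)
        _ = _ := by ring
    refine (Finset.sum_le_sum h2).trans ?_
    rw [← Finset.mul_sum]
    exact mul_le_mul_of_nonneg_left (h.sum_phi_w h.c.v0 h.c.V) hb
  have h3 : Z.trace * ∑ i ∈ F, ((Z ^ 2) i i - 1) * (Z ^ 3) i i ≤ τ1 * (b * (v * w)) := by
    refine (le_abs_self _).trans ?_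
    rw [abs_mul]
    exact mul_le_mul hτ h1 (abs_nonneg _) ((abs_nonneg _).trans hτ)
  linarith

/-- the `T₁`-term by sign: `ε T₁ ≤ 0`, `-ε (Z³)_cc ≤ m w_c + 1/N` -/
theorem T1_term_sign (h : Pr F Z b t s v w r z n) {m e τ1 τ3 : ℝ} (sg : Sg F Z m e)
    (he : e = 1 ∨ e = -1) (hm0 : 0 ≤ m) (hm1 : m ≤ 1) (hT1 : e * Z.trace ≤ 0)
    (hτ : |e * Z.trace| ≤ τ1) (hT3 : e * (Z ^ 3).trace ≤ τ3) (h3 : 0 ≤ τ3) :
    8 * (Z.trace * ∑ i ∈ F, ((Z ^ 2) i i - 1) * (Z ^ 3) i i)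
      ≤ 8 * (τ1 * (τ3 + w ^ 2 + t ^ 2 / F.card)) := by
  have hN : (0 : ℝ) < F.card := by exact_mod_cast sg.card
  have he2 : e * e = 1 := by rcases he with rfl | rfl <;> norm_num
  have hsup : ∑ i ∈ F, (Z ^ 3) i i = (Z ^ 3).trace :=
    D12.sum_diag_F ((show D12.Supp F Z from h.c.supp).pow 2)
  have hsup2 : ∑ i ∈ F, (Z ^ 2) i i = (Z ^ 2).trace :=
    D12.sum_diag_F ((show D12.Supp F Z from h.c.supp).pow 1)
  have h1 : -(e * ∑ i ∈ F, ((Z ^ 2) i i - 1) * (Z ^ 3) i i)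
      ≤ e * (Z ^ 3).trace + w ^ 2 + t ^ 2 / F.card := by
    have h2 : ∀ i ∈ F, -(e * (((Z ^ 2) i i - 1) * (Z ^ 3) i i))
        ≤ e * (Z ^ 3) i i + ((Z ^ 2) i i ^ 2 + (Z ^ 2) i i / F.card) := by
      intro i hi
      have h4 := sg.diag 1 hi
      norm_num at h4
      have h5 := h.w_nonneg i
      have h6 : -1 ≤ e := by rcases he with rfl | rfl <;> norm_num
      have h7 : -(1 / (F.card : ℝ)) ≤ (e + m) / F.card := by
        rw [← neg_div]
        exact div_le_div_of_nonneg_right (by linarith) hN.le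
      have h8 : -(e * (Z ^ 3) i i) ≤ (Z ^ 2) i i + 1 / F.card := by
        have : m * (Z ^ 2) i i ≤ 1 * (Z ^ 2) i i := mul_le_mul_of_nonneg_right hm1 h5
        linarith
      have h9 := mul_le_mul_of_nonneg_left h8 h5
      have e1 : (Z ^ 2) i i / F.card = (Z ^ 2) i i * (1 / F.card) := by ring
      rw [e1]
      nlinarith
    have h3' := Finset.sum_le_sum h2
    rw [Finset.sum_neg_distrib, ← Finset.mul_sum, Finset.sum_add_distrib, ← Finset.mul_sum, hsup,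
      Finset.sum_add_distrib, ← Finset.sum_div, hsup2] at h3'
    have h4 := h.c.W
    have h5 : (Z ^ 2).trace / F.card ≤ t ^ 2 / F.card :=
      div_le_div_of_nonneg_right h.c.T2 hN.le
    linarith
  have hτ0 : 0 ≤ τ1 := (abs_nonneg _).trans hτ
  have hw2 : 0 ≤ w ^ 2 + t ^ 2 / F.card := by positivity
  have h5 : 0 ≤ -(e * Z.trace) := by linarith
  have h6 : -(e * Z.trace) ≤ τ1 := by rw [abs_of_nonpos hT1] at hτ; exact hτ
  have e3 : Z.trace * ∑ i ∈ F, ((Z ^ 2) i i - 1) * (Z ^ 3) i i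
      = -(e * Z.trace) * -(e * ∑ i ∈ F, ((Z ^ 2) i i - 1) * (Z ^ 3) i i) := by
    have : -(e * Z.trace) * -(e * ∑ i ∈ F, ((Z ^ 2) i i - 1) * (Z ^ 3) i i)
        = (e * e) * (Z.trace * ∑ i ∈ F, ((Z ^ 2) i i - 1) * (Z ^ 3) i i) := by ring
    rw [this, he2, one_mul]
  rw [e3]
  have h7 : -(e * Z.trace) * -(e * ∑ i ∈ F, ((Z ^ 2) i i - 1) * (Z ^ 3) i i)
      ≤ τ1 * (τ3 + w ^ 2 + t ^ 2 / F.card) := by
    calc _ ≤ -(e * Z.trace) * (τ3 + w ^ 2 + t ^ 2 / F.card) :=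
          mul_le_mul_of_nonneg_left (by linarith) h5
      _ ≤ _ := mul_le_mul_of_nonneg_right h6 (by linarith)
  linarith

/-- collecting the drift of `V` -/
theorem V_core {om : ι → ι → ℝ} (h : Pr F Z b t s v w r z n) (hw : Wt F Z om G) (hy0 : 0 ≤ y)
    (hy : z * r * w ≤ y ^ 2) {D RQ X1 X2 : ℝ} (hD : |(Z ^ 2).trace - F.card| ≤ D)
    (hQ : A480.Q4 F Z ≤ 8 / 15 * F.card + RQ) (hRQ : 0 ≤ RQ)
    (hX1 : 8 * (Z.trace * ∑ i ∈ F, ((Z ^ 2) i i - 1) * (Z ^ 3) i i) ≤ X1)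
    (hX2 : -(8 * ∑ a ∈ F, ∑ c ∈ F, (1 - om a c) * rt 1 F Z a c) ≤ X2) :
    ∑ a ∈ F, ∑ c ∈ F, om a c * (Vt 1 ((F.erase a).erase c) (upd Z a c) - Vt 1 F Z) ≤
      2 * (n * G) * v ^ 2 + 15 / 4 * ((RQ + y ^ 2) * v ^ 2) + 8 * D + X1 + 4 * (D * (v ^ 2 + D))
        + X2 + 2 * v * FE b t s v w r n G + 210 * QB b s v w r z y := by
  have h1 := h.V_drift hw hy0 hy 1 h.c.v0 h.c.V
  have hV0 := Vt_nonneg 1 F Z
  have hV : Vt 1 F Z ≤ v ^ 2 := h.c.V
  have hVs : Vs F Z = Vt 1 F Z := rfl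
  rw [hVs] at h1
  have hG := mul_nonneg h.n0 hw.G0
  have hD0 : 0 ≤ D := (abs_nonneg _).trans hD
  have hD1 := abs_le.1 hD
  have e1 : ∑ i ∈ F, ((Z ^ 2) i i - 1) * (Z ^ 2) i i = Vt 1 F Z + ((Z ^ 2).trace - F.card) := by
    have e2 : ∑ i ∈ F, ((Z ^ 2) i i - 1) = (Z ^ 2).trace - F.card := h.sum_g
    unfold Vt
    rw [← e2, ← Finset.sum_add_distrib]
    exact Finset.sum_congr rfl fun i _ => by ring
  rw [e1] at h1
  have h2 : 4 * (((Z ^ 2).trace - F.card) * (Vt 1 F Z + ((Z ^ 2).trace - F.card)))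
      ≤ 4 * (D * (v ^ 2 + D)) := by
    have h3 : ((Z ^ 2).trace - F.card) * Vt 1 F Z ≤ D * v ^ 2 :=
      (mul_le_mul_of_nonneg_right hD1.2 hV0).trans (mul_le_mul_of_nonneg_left hV hD0)
    have h4 : ((Z ^ 2).trace - F.card) * ((Z ^ 2).trace - F.card) ≤ D * D := by
      rw [← abs_mul_abs_self]; exact mul_self_le_mul_self (abs_nonneg _) hD
    linarith
  have h3 : 15 / 4 * ((A480.Q4 F Z + y ^ 2) * Vt 1 F Z)
      ≤ 2 * F.card * Vt 1 F Z + 15 / 4 * ((RQ + y ^ 2) * v ^ 2) := by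
    have h4 : (A480.Q4 F Z + y ^ 2) * Vt 1 F Z ≤ (8 / 15 * F.card + RQ + y ^ 2) * Vt 1 F Z :=
      mul_le_mul_of_nonneg_right (by linarith) hV0
    have h5 : (RQ + y ^ 2) * Vt 1 F Z ≤ (RQ + y ^ 2) * v ^ 2 :=
      mul_le_mul_of_nonneg_left hV (by positivity)
    nlinarith
  have h4 : n * G * Vt 1 F Z ≤ n * G * v ^ 2 := mul_le_mul_of_nonneg_left hV hG
  nlinarith

end Vale.Agent.P049.TS.RV
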