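import Vale.Agent.P049.TS.Rate.VAbs
import Vale.Agent.P049.TS.Asm.ExpoEnv

/-!
Numbers for the rate of `V`: all error terms as polynomials (`Asm/Expo`).
-/

set_option linter.unusedSectionVars false
set_option exponentiation.threshold 3000

namespace Vale.Agent.P049.TS.RV

open Asm

/-- the environment -/
def envV {α : Type*} [Zero α] (x0 x1 x2 x3 x4 x5 x6 x7 x8 x9 x10 x11 x12 x13 x14 x15 x16 x17 : α) : ℕ → α
  | 0 => x0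
  | 1 => x1
  | 2 => x2
  | 3 => x3
  | 4 => x4
  | 5 => x5
  | 6 => x6
  | 7 => x7
  | 8 => x8
  | 9 => x9
  | 10 => x10
  | 11 => x11
  | 12 => x12
  | 13 => x13
  | 14 => x14
  | 15 => x15
  | 16 => x16
  | 17 => x17
  | _ => 0

/-- one variable: `0 ≤ x ≤ κ Em` -/
structure EB (L X xl xh x κ : ℝ) (y z : ℤ) : Prop where
  nn : 0 ≤ x
  c0 : 0 ≤ κ
  le : x ≤ κ * Asm.Em L X xl xh y z

theorem envV_bound {L X xl xh : ℝ} {x0 x1 x2 x3 x4 x5 x6 x7 x8 x9 x10 x11 x12 x13 x14 x15 x16 x17 k0 k1 k2 k3 k4 k5 k6 k7 k8 k9 k10 k11 k12 k13 k14 k15 k16 k17 : ℝ} {y0 y1 y2 y3 y4 y5 y6 y7 y8 y9 y10 y11 y12 y13 y14 y15 y16 y17 z0 z1 z2 z3 z4 z5 z6 z7 z8 z9 z10 z11 z12 z13 z14 z15 z16 z17 : ℤ}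
    (h0 : EB L X xl xh x0 k0 y0 z0)
    (h1 : EB L X xl xh x1 k1 y1 z1)
    (h2 : EB L X xl xh x2 k2 y2 z2)
    (h3 : EB L X xl xh x3 k3 y3 z3)
    (h4 : EB L X xl xh x4 k4 y4 z4)
    (h5 : EB L X xl xh x5 k5 y5 z5)
    (h6 : EB L X xl xh x6 k6 y6 z6)
    (h7 : EB L X xl xh x7 k7 y7 z7)
    (h8 : EB L X xl xh x8 k8 y8 z8)
    (h9 : EB L X xl xh x9 k9 y9 z9)
    (h10 : EB L X xl xh x10 k10 y10 z10)
    (h11 : EB L X xl xh x11 k11 y11 z11)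
    (h12 : EB L X xl xh x12 k12 y12 z12)
    (h13 : EB L X xl xh x13 k13 y13 z13)
    (h14 : EB L X xl xh x14 k14 y14 z14)
    (h15 : EB L X xl xh x15 k15 y15 z15)
    (h16 : EB L X xl xh x16 k16 y16 z16)
    (h17 : EB L X xl xh x17 k17 y17 z17) :
    (∀ i, 0 ≤ envV x0 x1 x2 x3 x4 x5 x6 x7 x8 x9 x10 x11 x12 x13 x14 x15 x16 x17 i) ∧
    (∀ i, 0 ≤ envV k0 k1 k2 k3 k4 k5 k6 k7 k8 k9 k10 k11 k12 k13 k14 k15 k16 k17 i) ∧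
    ∀ i, envV x0 x1 x2 x3 x4 x5 x6 x7 x8 x9 x10 x11 x12 x13 x14 x15 x16 x17 i ≤ envV k0 k1 k2 k3 k4 k5 k6 k7 k8 k9 k10 k11 k12 k13 k14 k15 k16 k17 i *
      Asm.Em L X xl xh (envV y0 y1 y2 y3 y4 y5 y6 y7 y8 y9 y10 y11 y12 y13 y14 y15 y16 y17 i) (envV z0 z1 z2 z3 z4 z5 z6 z7 z8 z9 z10 z11 z12 z13 z14 z15 z16 z17 i) := by
  refine ⟨fun i => ?_, fun i => ?_, fun i => ?_⟩
  · match i with
    | 0 => exact h0.nn
    | 1 => exact h1.nn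
    | 2 => exact h2.nn
    | 3 => exact h3.nn
    | 4 => exact h4.nn
    | 5 => exact h5.nn
    | 6 => exact h6.nn
    | 7 => exact h7.nn
    | 8 => exact h8.nn
    | 9 => exact h9.nn
    | 10 => exact h10.nn
    | 11 => exact h11.nn
    | 12 => exact h12.nn
    | 13 => exact h13.nn
    | 14 => exact h14.nn
    | 15 => exact h15.nn
    | 16 => exact h16.nn
    | 17 => exact h17.nn
    | _ + 18 => exact le_rfl
  · match i with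
    | 0 => exact h0.c0
    | 1 => exact h1.c0
    | 2 => exact h2.c0
    | 3 => exact h3.c0
    | 4 => exact h4.c0
    | 5 => exact h5.c0
    | 6 => exact h6.c0
    | 7 => exact h7.c0
    | 8 => exact h8.c0
    | 9 => exact h9.c0
    | 10 => exact h10.c0
    | 11 => exact h11.c0
    | 12 => exact h12.c0
    | 13 => exact h13.c0
    | 14 => exact h14.c0
    | 15 => exact h15.c0
    | 16 => exact h16.c0
    | 17 => exact h17.c0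
    | _ + 18 => exact le_rfl
  · match i with
    | 0 => exact h0.le
    | 1 => exact h1.le
    | 2 => exact h2.le
    | 3 => exact h3.le
    | 4 => exact h4.le
    | 5 => exact h5.le
    | 6 => exact h6.le
    | 7 => exact h7.le
    | 8 => exact h8.le
    | 9 => exact h9.le
    | 10 => exact h10.le
    | 11 => exact h11.le
    | 12 => exact h12.le
    | 13 => exact h13.le
    | 14 => exact h14.le
    | 15 => exact h15.le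
    | 16 => exact h16.le
    | 17 => exact h17.le
    | _ + 18 => simp [envV]

/-- the error polynomial (times 100), phase `I` -/
abbrev eI : Ex :=
  200 * ((.v 7) * (.v 8)) * (.v 3) ^ 2 + 375 * ((((.v 10) + 2 * ((.v 11) + (.v 2) * (.v 3)) + (.v 2) ^ 2 * (1 + (.v 3)) + (.v 2) ^ 4 + 2 * (.v 12) * (3 * (.v 1) ^ 2 + 2 * ((.v 2) * (.v 4)) + (.v 4) ^ 2)) + (.v 9) ^ 2) * (.v 3) ^ 2) + 800 * (.v 10) +
    100 * (8 * ((.v 11) * ((.v 0) * ((.v 3) * (.v 4))))) + 400 * ((.v 10) * ((.v 3) ^ 2 + (.v 10))) + (100 * (8 * ((1 + (.v 13) + 128 * (1 + (.v 3)) + 128 * (.v 2) ^ 4) * (.v 0) * ((.v 3) * (.v 4)))) + ((.v 14) * (800 * (.v 0) ^ 4 + (.v 15) * (2400 * (.v 0) ^ 2 + 960 * ((.v 0) * (.v 16))) + 8400 * ((.v 0) ^ 2 * (.v 3) ^ 2) +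
      2400 * ((.v 0) * (.v 3) ^ 3)) + 800 * ((32 * (.v 14) ^ 2 + (4 * (1 + (.v 13)) + 128 + 64 * (.v 2) ^ 2) * (.v 14)) * (.v 0) * (.v 3) * (.v 4)))) + 2 * (.v 3) * (400 * ((.v 8) * (.v 2) * ((.v 0) * (.v 4))) + 200 * ((.v 8) * (.v 3) * (.v 4)) +
    3 * ((400 * (((.v 1) + (.v 2) ^ 2) * (.v 0)) + 800 * (((.v 5) * (.v 2) + (.v 2) ^ 3) * (.v 0)) + 256 * ((.v 2) ^ 2 * (.v 5) ^ 2) +
      480 * ((.v 3) * (.v 2)) + 500 * (((.v 5) + (.v 2) ^ 2) * (.v 3)) + 480 * ((.v 0) * (.v 5) * (.v 2)) + 260 * (.v 0) ^ 2) * (.v 4) +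
      (.v 7) * (200 * (((.v 5) + (.v 2) ^ 2) * (.v 4)) + 225 * ((.v 0) * (.v 5) * (.v 2)) + 100 * ((.v 5) * (.v 3)) + 100 * ((.v 2) ^ 2 * (.v 3))))) + 210 * (900 * ((.v 0) ^ 2 * (.v 4) ^ 2) + 1600 * ((.v 2) ^ 2 * ((.v 5) ^ 2 * (.v 4) ^ 2)) +
    656 * (((.v 2) ^ 2 * (.v 2) ^ 2) * ((.v 6) ^ 2 * ((.v 5) ^ 2 * (.v 3) ^ 2))) +
    2304 * (((.v 6) ^ 2 * (.v 2) ^ 2) * ((.v 5) ^ 2 * (.v 3) ^ 2)) +
    5000 * ((.v 3) ^ 2 * ((.v 6) ^ 2 * ((.v 6) * (.v 5) * (.v 4)))) + 5000 * (((.v 2) ^ 2 * (.v 3) ^ 2) * ((.v 2) ^ 2 * ((.v 6) ^ 2 * (.v 5) ^ 2))) +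
    2304 * (((.v 6) ^ 2 * (.v 4) ^ 2) * ((.v 5) ^ 2 * (.v 2) ^ 2)) +
    676 * (((.v 0) ^ 2 + (.v 2) * (.v 4)) * ((.v 4) ^ 2 + (.v 2) * ((.v 4) * (.v 9)))))

theorem eI_ev (b t s v w r z n G y D q iN Dl lam cw p u : ℝ) :
    100 * (2 * (n * G) * v ^ 2 + 15 / 4 * (((D + 2 * (q + s * v) + s ^ 2 * (1 + v) + s ^ 4 + 2 * iN * (3 * t ^ 2 + 2 * (s * w) + w ^ 2)) + y ^ 2) * v ^ 2) + 8 * D
        + 8 * (q * (b * (v * w))) + 4 * (D * (v ^ 2 + D))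
        + (8 * ((1 + Dl + 128 * (1 + v) + 128 * s ^ 4) * b * (v * w)) + 8 * (lam * (b ^ 4 + cw * (3 * b ^ 2 + 6 / 5 * (b * p)) + 21 / 2 * (b ^ 2 * v ^ 2)
          + 3 * (b * v ^ 3)) + Tilt.rbs lam Dl s * b * v * w)) + 2 * v * A480.FE b t s v w r n G + 210 * A480.QB b s v w r z y)
      = eI.ev (envV b t s v w r z n G y D q iN Dl lam cw p u) := by
  simp only [eI, Ex.ev_add, Ex.ev_mul, Ex.ev_pow, Ex.ev_ofNat, Ex.ev_v, envV,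
    A480.FE, A480.QB, A480.KB, A480.K2, Tilt.rbs]
  push_cast
  ring

/-- exponents at the lower end -/
def eI_y : ℕ → ℤ := envV 1201 1604 160 1220 1604 610 160 1604 744 1187 2732 1536 (-3208) 0 744 1724 1830 4000

/-- exponents at the upper end -/
def eI_z : ℕ → ℤ := envV 1002 2002 160 1220 2002 610 160 2002 744 1386 2732 1536 (-4004) 0 744 2122 1830 4000

theorem eI_1 : eI.y eI_y ≤ 5644 := by decide +kernel

theorem eI_2 : eI.y eI_z ≤ 6440 := by decide +kernel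

/-- the error polynomial (times 100), phase `II` -/
abbrev eII : Ex :=
  200 * ((.v 7) * (.v 8)) * (.v 3) ^ 2 + 375 * ((((.v 10) + 2 * ((.v 11) + (.v 2) * (.v 3)) + (.v 2) ^ 2 * (1 + (.v 3)) + (.v 2) ^ 4 + 2 * (.v 12) * (3 * (.v 1) ^ 2 + 2 * ((.v 2) * (.v 4)) + (.v 4) ^ 2)) + (.v 9) ^ 2) * (.v 3) ^ 2) + 800 * (.v 10) +
    100 * (8 * ((.v 11) * ((.v 17) + (.v 4) ^ 2 + (.v 1) ^ 2 * (.v 12)))) + 400 * ((.v 10) * ((.v 3) ^ 2 + (.v 10))) + (100 * (8 * ((1 + (.v 13) + 128 * (1 + (.v 3)) + 128 * (.v 2) ^ 4) * (.v 0) * ((.v 3) * (.v 4))))) + 2 * (.v 3) * (400 * ((.v 8) * (.v 2) * ((.v 0) * (.v 4))) + 200 * ((.v 8) * (.v 3) * (.v 4)) +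
    3 * ((400 * (((.v 1) + (.v 2) ^ 2) * (.v 0)) + 800 * (((.v 5) * (.v 2) + (.v 2) ^ 3) * (.v 0)) + 256 * ((.v 2) ^ 2 * (.v 5) ^ 2) +
      480 * ((.v 3) * (.v 2)) + 500 * (((.v 5) + (.v 2) ^ 2) * (.v 3)) + 480 * ((.v 0) * (.v 5) * (.v 2)) + 260 * (.v 0) ^ 2) * (.v 4) +
      (.v 7) * (200 * (((.v 5) + (.v 2) ^ 2) * (.v 4)) + 225 * ((.v 0) * (.v 5) * (.v 2)) + 100 * ((.v 5) * (.v 3)) + 100 * ((.v 2) ^ 2 * (.v 3))))) + 210 * (900 * ((.v 0) ^ 2 * (.v 4) ^ 2) + 1600 * ((.v 2) ^ 2 * ((.v 5) ^ 2 * (.v 4) ^ 2)) +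
    656 * (((.v 2) ^ 2 * (.v 2) ^ 2) * ((.v 6) ^ 2 * ((.v 5) ^ 2 * (.v 3) ^ 2))) +
    2304 * (((.v 6) ^ 2 * (.v 2) ^ 2) * ((.v 5) ^ 2 * (.v 3) ^ 2)) +
    5000 * ((.v 3) ^ 2 * ((.v 6) ^ 2 * ((.v 6) * (.v 5) * (.v 4)))) + 5000 * (((.v 2) ^ 2 * (.v 3) ^ 2) * ((.v 2) ^ 2 * ((.v 6) ^ 2 * (.v 5) ^ 2))) +
    2304 * (((.v 6) ^ 2 * (.v 4) ^ 2) * ((.v 5) ^ 2 * (.v 2) ^ 2)) +
    676 * (((.v 0) ^ 2 + (.v 2) * (.v 4)) * ((.v 4) ^ 2 + (.v 2) * ((.v 4) * (.v 9)))))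

theorem eII_ev (b t s v w r z n G y D q iN Dl lam cw p u : ℝ) :
    100 * (2 * (n * G) * v ^ 2 + 15 / 4 * (((D + 2 * (q + s * v) + s ^ 2 * (1 + v) + s ^ 4 + 2 * iN * (3 * t ^ 2 + 2 * (s * w) + w ^ 2)) + y ^ 2) * v ^ 2) + 8 * D
        + 8 * (q * (u + w ^ 2 + t ^ 2 * iN)) + 4 * (D * (v ^ 2 + D))
        + 8 * ((1 + Dl + 128 * (1 + v) + 128 * s ^ 4) * b * (v * w)) + 2 * v * A480.FE b t s v w r n G + 210 * A480.QB b s v w r z y)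
      = eII.ev (envV b t s v w r z n G y D q iN Dl lam cw p u) := by
  simp only [eII, Ex.ev_add, Ex.ev_mul, Ex.ev_pow, Ex.ev_ofNat, Ex.ev_v, envV,
    A480.FE, A480.QB, A480.KB, A480.K2, Tilt.rbs]
  push_cast
  ring

/-- exponents at the lower end -/
def eII_y : ℕ → ℤ := envV 1304 1398 160 1380 1398 690 160 1398 690 1124 2740 1536 (-2796) 0 0 0 0 4000

/-- exponents at the upper end -/
def eII_z : ℕ → ℤ := envV 1201 1604 160 1380 1604 690 160 1604 690 1227 2740 1536 (-3208) 0 0 0 0 4000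

theorem eII_1 : eII.y eII_y ≤ 5552 := by decide +kernel

theorem eII_2 : eII.y eII_z ≤ 5964 := by decide +kernel

end Vale.Agent.P049.TS.RV
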