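import Vale.Agent.P049.TS.Avg480.VD
import Vale.Agent.P049.TS.Final.AdmOK
import Vale.Agent.P049.TS.Tilt.RowV

/-!
The weights `1 - h` on the admissible pairs in the format `Wt` of the drift lemmas of `V_τ`.
-/

set_option linter.unusedSectionVars false

namespace Vale.Agent.P049.TS.WtA

open Matrix Finset A480

variable {ι : Type*} [Fintype ι] [DecidableEq ι]
variable {F : Finset ι} {forb : ι → ι → Prop} {Z Zp Zm : Matrix ι ι ℝ} {Δ s v : ℝ}
  {h : ι → ι → ℝ}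

open Classical in
/-- the weight function on all pairs -/
noncomputable def omf (F : Finset ι) (forb : ι → ι → Prop) (Zp Zm : Matrix ι ι ℝ)
    (h : ι → ι → ℝ) (a c : ι) : ℝ :=
  if (a, c) ∈ adm F forb Zp Zm then 1 - h a c else 0

theorem sum_omf (f : ι → ι → ℝ) :
    ∑ a ∈ F, ∑ c ∈ F, omf F forb Zp Zm h a c * f a c
      = ∑ p ∈ adm F forb Zp Zm, (1 - h p.1 p.2) * f p.1 p.2 := by
  classical
  rw [← Finset.sum_product' (s := F) (t := F)
    (f := fun a c => omf F forb Zp Zm h a c * f a c)]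
  symm
  refine (Finset.sum_subset (adm_subset F forb Zp Zm) fun p _ hp => ?_).symm.trans ?_ |>.symm
  · unfold omf; rw [if_neg hp, zero_mul]
  · refine Finset.sum_congr rfl fun p hp => ?_
    unfold omf; rw [if_pos hp]

/-- bounds used for the degrees of the excluded pairs -/
structure RowB (F : Finset ι) (Z : Matrix ι ι ℝ) (s v : ℝ) : Prop where
  symm : Z.IsSymm
  S : ∑ a ∈ F, Z a a ^ 2 ≤ s ^ 2
  V : ∑ a ∈ F, ((Z ^ 2) a a - 1) ^ 2 ≤ v ^ 2
  v0 : 0 ≤ v

theorem RowB.of_one {b t : ℝ} (o : Tilt.One F Z b t s v) (hv : 0 ≤ v) : RowB F Z s v :=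
  ⟨o.symm, o.S, o.V, hv⟩

theorem RowB.of_ctl {b t w : ℝ} (o : D12.Ctl F Z b t s v w) : RowB F Z s v :=
  ⟨o.symm, o.S, o.V, o.v0⟩

theorem RowB.w_le (o : RowB F Z s v) {a : ι} (ha : a ∈ F) : (Z ^ 2) a a ≤ 1 + v := by
  have h1 : ((Z ^ 2) a a - 1) ^ 2 ≤ v ^ 2 :=
    (Finset.single_le_sum (f := fun a => ((Z ^ 2) a a - 1) ^ 2) (fun _ _ => sq_nonneg _) ha).trans
      o.V
  have h2 := abs_le_of_sq_le_sq' h1 o.v0
  linarith [h2.2]

theorem RowB.sum_le (o : RowB F Z s v) {a : ι} (ha : a ∈ F) :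
    ∑ c ∈ F, (64 * Z a c ^ 2 + 64 * (Z a a ^ 2 * Z c c ^ 2)) ≤ 64 * (1 + v) + 64 * s ^ 4 := by
  rw [Finset.sum_add_distrib, ← Finset.mul_sum, ← Finset.mul_sum, ← Finset.mul_sum]
  have h1 : ∑ c ∈ F, Z a c ^ 2 ≤ (Z ^ 2) a a := by
    rw [Mat.sq_diag_eq_sum o.symm]
    refine (Finset.sum_le_sum_of_subset_of_nonneg (Finset.subset_univ F)
      fun _ _ _ => sq_nonneg _).trans (le_of_eq ?_)
    rfl
  have h2 := o.w_le ha
  have h3 : Z a a ^ 2 ≤ s ^ 2 :=
    (Finset.single_le_sum (f := fun c => Z c c ^ 2) (fun _ _ => sq_nonneg _) ha).trans o.S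
  have h4 : Z a a ^ 2 * ∑ c ∈ F, Z c c ^ 2 ≤ s ^ 2 * s ^ 2 :=
    mul_le_mul h3 o.S (Finset.sum_nonneg fun _ _ => sq_nonneg _) (sq_nonneg _)
  nlinarith

open Classical in
/-- **degrees of the excluded pairs** -/
theorem deg_le (hp : RowB F Zp s v) (hm : RowB F Zm s v)
    (hc : ∀ a ∈ F, ((F.filter fun b => forb a b).card : ℝ) ≤ Δ) {a : ι} (ha : a ∈ F) :
    ((F.filter fun c => (a, c) ∉ adm F forb Zp Zm).card : ℝ)
      ≤ 1 + Δ + 128 * (1 + v) + 128 * s ^ 4 := by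
  have k1 := hp.sum_le ha
  have k2 := hm.sum_le ha
  have e1 : ∑ c ∈ F, (if a = c then (1 : ℝ) else 0) ≤ 1 := by
    rw [Finset.sum_ite_eq, if_pos ha]
  have e2 : ∑ c ∈ F, (if forb a c then (1 : ℝ) else 0) ≤ Δ := by
    rw [Finset.sum_ite, Finset.sum_const_zero, add_zero, Finset.sum_const, nsmul_eq_mul, mul_one]
    exact hc a ha
  have h1 : ((F.filter fun c => (a, c) ∉ adm F forb Zp Zm).card : ℝ)
      ≤ ∑ c ∈ F, mj2 forb Zp Zm a c := by
    rw [Finset.card_eq_sum_ones, Nat.cast_sum, Finset.sum_filter]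
    refine Finset.sum_le_sum fun c hcF => ?_
    by_cases hh : (a, c) ∈ adm F forb Zp Zm
    · rw [if_neg (not_not.2 hh)]
      unfold mj2
      have i1 : (0 : ℝ) ≤ if a = c then 1 else 0 := by split_ifs <;> norm_num
      have i2 : (0 : ℝ) ≤ if forb a c then 1 else 0 := by split_ifs <;> norm_num
      positivity
    · rw [if_pos hh]
      have := (one_le_mj (F := F) (forb := forb) (Zp := Zp) (Zm := Zm) (p := (a, c))
        (Finset.mem_sdiff.2 ⟨Finset.mem_product.2 ⟨ha, hcF⟩, hh⟩)).2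
      simpa using this
  refine h1.trans ?_
  unfold mj2
  rw [Finset.sum_add_distrib, Finset.sum_add_distrib, Finset.sum_add_distrib]
  have e1' : ∑ x ∈ F, (if a = x then (1 : ℝ) else 0) ≤ 1 := by convert e1
  have e2' : ∑ x ∈ F, (if forb a x then (1 : ℝ) else 0) ≤ Δ := by convert e2
  linarith

/-- **the weights in the format `Wt`** -/
theorem wt_omf {G H : ℝ} (hp : RowB F Zp s v) (hm : RowB F Zm s v)
    (hf : ∀ a b, forb a b → forb b a)
    (hc : ∀ [∀ x y, Decidable (forb x y)],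
      ∀ a ∈ F, ((F.filter fun b => forb a b).card : ℝ) ≤ Δ)
    (hh : ∀ a c, |h a c| ≤ 1 / 2) (hs : ∀ a c, h a c = h c a)
    (hr : ∀ a ∈ F, ∑ c ∈ F, h a c ^ 2 ≤ H) (hG0 : 0 ≤ G)
    (hG : 1 + Δ + 128 * (1 + v) + 128 * s ^ 4 + H ≤ G ^ 2) (hZ : Z = Zp ∨ Z = Zm) :
    Wt F Z (omf F forb Zp Zm h) G := by
  classical
  refine ⟨?_, ?_, ?_, ?_, hG0, ?_⟩
  · intro a _ c _
    unfold omf
    split_ifs
    · have := abs_le.1 (hh a c); linarith [this.2]
    · exact le_rfl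
  · intro a _ c _
    unfold omf
    split_ifs
    · have := abs_le.1 (hh a c); linarith [this.1]
    · norm_num
  · intro a _ c _ h0
    unfold omf at h0
    split_ifs at h0 with hmem
    · rw [mem_adm] at hmem
      obtain ⟨-, h1, -, h2, h3⟩ := hmem
      rcases hZ with rfl | rfl
      · exact ⟨h1, h2⟩
      · exact ⟨h1, h3⟩
    · exact absurd rfl h0
  · intro a c
    unfold omf
    have e : ((a, c) ∈ adm F forb Zp Zm) = ((c, a) ∈ adm F forb Zp Zm) :=
      propext ⟨Tilt.adm_symm hp.symm hm.symm hf, Tilt.adm_symm hp.symm hm.symm hf⟩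
    rw [hs a c]
    simp only [e]
  · intro a ha
    have h1 : ∀ c ∈ F, (1 - omf F forb Zp Zm h a c) ^ 2
        ≤ (if (a, c) ∉ adm F forb Zp Zm then (1 : ℝ) else 0) + h a c ^ 2 := by
      intro c _
      unfold omf
      split_ifs with hmem
      · rw [sub_sub_cancel, zero_add]
      · nlinarith [sq_nonneg (h a c)]
    refine (Finset.sum_le_sum h1).trans ?_
    rw [Finset.sum_add_distrib, ← Finset.sum_filter, Finset.sum_const, nsmul_eq_mul, mul_one]
    have h2 := deg_le (F := F) (forb := forb) hp hm hc ha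
    have h3 := hr a ha
    have h4 : ((F.filter fun c => (a, c) ∉ adm F forb Zp Zm).card : ℝ)
      ≤ 1 + Δ + 128 * (1 + v) + 128 * s ^ 4 := by convert h2
    linarith

end Vale.Agent.P049.TS.WtA
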